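import Mathlib

/-!
P174: an integral mapping degree in Euclidean space. The only tool is the divergence identity
for the cofactors of a Jacobian matrix.
-/

noncomputable section

namespace Vale.Agent.P174.GR

open MeasureTheory Filter Topology Set Function

variable {ι : Type} [Fintype ι] [DecidableEq ι]

/-- The partial derivatives of a scalar function. -/
def grad (u : (ι → ℝ) → ℝ) (x : ι → ℝ) : ι → ℝ := fun j => fderiv ℝ u x (Pi.single j 1)

/-- The Jacobian matrix. -/
def jac (F : (ι → ℝ) → (ι → ℝ)) (x : ι → ℝ) : Matrix ι ι ℝ :=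
  fun a b => fderiv ℝ F x (Pi.single b 1) a

/-- The determinant as a continuous multilinear map of the rows. -/
def detC : ContinuousMultilinearMap ℝ (fun _ : ι => ι → ℝ) ℝ where
  toMultilinearMap := (Matrix.detRowAlternating (R := ℝ) (n := ι)).toMultilinearMap
  cont := by
    show Continuous fun M : Matrix ι ι ℝ => M.det
    exact continuous_id.matrix_det

theorem detC_apply (M : Matrix ι ι ℝ) : detC M = M.det := rfl

omit [DecidableEq ι] in
theorem fderiv_eq_sum_grad [DecidableEq ι] (u : (ι → ℝ) → ℝ) (x w : ι → ℝ) :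
    fderiv ℝ u x w = ∑ j, w j * grad u x j := by
  conv_lhs => rw [← Finset.univ_sum_single w]
  rw [map_sum]
  refine Finset.sum_congr rfl fun j _ => ?_
  rw [show (Pi.single j (w j) : ι → ℝ) = w j • Pi.single j 1 by
    rw [← Pi.single_smul', smul_eq_mul, mul_one], map_smul, smul_eq_mul]
  rfl

theorem det_jac (F : (ι → ℝ) → (ι → ℝ)) (x : ι → ℝ) :
    (jac F x).det = (fderiv ℝ F x).det := by
  rw [ContinuousLinearMap.det, ← LinearMap.det_toMatrix']
  congr 1

theorem continuous_jac {F : (ι → ℝ) → (ι → ℝ)} (hF : ContDiff ℝ 1 F) : Continuous (jac F) := by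
  refine continuous_pi fun a => continuous_pi fun b => ?_
  exact (continuous_apply a).comp ((hF.continuous_fderiv one_ne_zero).clm_apply continuous_const)

theorem det_updateRow_sum_mul (M : Matrix ι ι ℝ) (a : ι) {κ : Type} (s : Finset κ) (c : κ → ℝ)
    (w : κ → ι → ℝ) :
    (M.updateRow a (∑ l ∈ s, c l • w l)).det = ∑ l ∈ s, c l * (M.updateRow a (w l)).det := by
  classical
  induction s using Finset.induction with
  | empty =>
    simp only [Finset.sum_empty]
    exact Matrix.det_eq_zero_of_row_eq_zero a fun b => by simp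
  | insert l s hl ih =>
    rw [Finset.sum_insert hl, Finset.sum_insert hl, Matrix.det_updateRow_add,
      Matrix.det_updateRow_smul, ih]

theorem det_updateRow_grad (M : Matrix ι ι ℝ) (a : ι) (g : ι → ℝ) :
    (M.updateRow a g).det = ∑ j, g j * (M.updateRow a (Pi.single j 1)).det := by
  conv_lhs => rw [← Finset.univ_sum_single g]
  rw [show (∑ j, (Pi.single j (g j) : ι → ℝ)) = ∑ j, g j • (Pi.single j 1 : ι → ℝ) from
    Finset.sum_congr rfl fun j _ => by rw [← Pi.single_smul', smul_eq_mul, mul_one]]
  exact det_updateRow_sum_mul M a _ g _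

/-- The Piola identity: a cofactor row of a Jacobian has zero divergence. -/
theorem piola {F : (ι → ℝ) → (ι → ℝ)} (hF : ContDiff ℝ 2 F) (a : ι) (x : ι → ℝ) :
    ∑ j, fderiv ℝ (fun y => ((jac F y).updateRow a (Pi.single j 1)).det) x (Pi.single j 1) = 0 := by
  have hd : Differentiable ℝ (fderiv ℝ F) :=
    (hF.fderiv_right (m := 1) (by norm_num)).differentiable one_ne_zero
  set B := fderiv ℝ (fderiv ℝ F) x with hB
  have hjd : ∀ r b, HasFDerivAt (fun y => jac F y r b)
      ((ContinuousLinearMap.proj (R := ℝ) (φ := fun _ : ι => ℝ) r).comp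
        ((ContinuousLinearMap.apply ℝ (ι → ℝ) (Pi.single b 1)).comp B)) x := fun r b => by
    have h1 := (ContinuousLinearMap.apply ℝ (ι → ℝ) (Pi.single b 1 : ι → ℝ)).hasFDerivAt.comp x
      (hd x).hasFDerivAt
    exact (ContinuousLinearMap.proj (R := ℝ) (φ := fun _ : ι => ℝ) r).hasFDerivAt.comp x h1
  -- the derivative of the rows
  let D : ι → ((ι → ℝ) →L[ℝ] (ι → ℝ)) := fun r => if r = a then 0 else
    ContinuousLinearMap.pi fun b => (ContinuousLinearMap.proj (R := ℝ) (φ := fun _ : ι => ℝ) r).comp
      ((ContinuousLinearMap.apply ℝ (ι → ℝ) (Pi.single b 1)).comp B)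
  have hrows : ∀ j, HasFDerivAt (fun y r => (jac F y).updateRow a (Pi.single j 1) r)
      (ContinuousLinearMap.pi D) x := by
    intro j
    refine hasFDerivAt_pi.2 fun r => ?_
    by_cases hr : r = a
    · subst hr
      simp only [Matrix.updateRow_self, D, if_true]
      exact hasFDerivAt_const (Pi.single j 1 : ι → ℝ) x
    · simp only [Matrix.updateRow_ne hr, D, if_neg hr]
      exact hasFDerivAt_pi.2 fun b => hjd r b
  have hdet : ∀ j, fderiv ℝ (fun y => ((jac F y).updateRow a (Pi.single j 1)).det) x (Pi.single j 1)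
      = ∑ r, (((jac F x).updateRow a (Pi.single j 1)).updateRow r (D r (Pi.single j 1))).det := by
    intro j
    have h1 := ((detC (ι := ι)).hasFDerivAt (fun r => (jac F x).updateRow a (Pi.single j 1) r)).comp x (hrows j)
    rw [show (fun y => ((jac F y).updateRow a (Pi.single j 1)).det) =
      detC ∘ fun y r => (jac F y).updateRow a (Pi.single j 1) r from rfl, h1.fderiv]
    simp [ContinuousMultilinearMap.linearDeriv_apply]
    rfl
  simp only [hdet]
  rw [Finset.sum_comm]
  refine Finset.sum_eq_zero fun r _ => ?_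
  by_cases hr : r = a
  · subst hr
    refine Finset.sum_eq_zero fun j _ => Matrix.det_eq_zero_of_row_eq_zero r fun b => ?_
    simp [D]
  set T : ι → ι → ℝ := fun j l =>
    (((jac F x).updateRow a (Pi.single j 1)).updateRow r (Pi.single l 1)).det with hT
  set s : ι → ι → ℝ := fun j l => B (Pi.single j 1) (Pi.single l 1) r with hs
  have hsum : ∀ j, (((jac F x).updateRow a (Pi.single j 1)).updateRow r (D r (Pi.single j 1))).det =
      ∑ l, s j l * T j l := by
    intro j
    rw [det_updateRow_grad]
    simp [D, hr, hs, hT]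
  simp only [hsum]
  have hsymm : ∀ j l, s j l = s l j := fun j l => by
    have h := hF.contDiffAt (x := x) |>.isSymmSndFDerivAt (by simp)
    simp only [hs, hB]
    rw [h (Pi.single j 1) (Pi.single l 1)]
  have hanti : ∀ j l, T j l = -T l j := by
    intro j l
    simp only [hT]
    set M := ((jac F x).updateRow a (Pi.single j 1)).updateRow r (Pi.single l 1) with hM
    have hswap : ((jac F x).updateRow a (Pi.single l 1)).updateRow r (Pi.single j 1) =
        M.submatrix (Equiv.swap a r) id := by
      ext p q
      by_cases hpr : p = r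
      · subst hpr; simp [hM, Matrix.updateRow_ne (Ne.symm hr), Equiv.swap_apply_right]
      · by_cases hpa : p = a
        · subst hpa; simp [hM, Matrix.updateRow_ne (Ne.symm hr), Equiv.swap_apply_left]
        · simp [hM, Matrix.updateRow_ne hpr, Matrix.updateRow_ne hpa,
            Equiv.swap_apply_of_ne_of_ne hpa hpr]
    rw [hswap, Matrix.det_permute, Equiv.Perm.sign_swap (Ne.symm hr)]
    simp
  have h2 : ∑ j, ∑ l, s j l * T j l = -∑ j, ∑ l, s j l * T j l := by
    conv_lhs => rw [Finset.sum_comm]
    rw [← Finset.sum_neg_distrib]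
    refine Finset.sum_congr rfl fun j _ => ?_
    rw [← Finset.sum_neg_distrib]
    refine Finset.sum_congr rfl fun l _ => ?_
    rw [hsymm l j, hanti l j, mul_neg]
  linarith

theorem contDiff_cof {F : (ι → ℝ) → (ι → ℝ)} (hF : ContDiff ℝ 2 F) (a j : ι) :
    ContDiff ℝ 1 fun y => ((jac F y).updateRow a (Pi.single j 1)).det := by
  have h1 : ContDiff ℝ 1 fun y r => (jac F y).updateRow a (Pi.single j 1) r := by
    refine contDiff_pi.2 fun r => ?_
    by_cases hr : r = a
    · subst hr; simpa using contDiff_const
    · simp only [Matrix.updateRow_ne hr]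
      refine contDiff_pi.2 fun b => ?_
      have h2 := ((hF.fderiv_right (m := 1) (by norm_num)).clm_apply
        (contDiff_const (c := (Pi.single b 1 : ι → ℝ))))
      exact contDiff_pi.1 h2 r
  exact (detC (ι := ι)).contDiff.comp h1

/-- A row replaced by the gradient of a compactly supported function integrates to zero. -/
theorem integral_det_updateRow_grad {F : (ι → ℝ) → (ι → ℝ)} (hF : ContDiff ℝ 2 F)
    {u : (ι → ℝ) → ℝ} (hu : ContDiff ℝ 1 u) (hc : HasCompactSupport u) (a : ι) :
    ∫ x, ((jac F x).updateRow a (grad u x)).det = 0 := by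
  set c : ι → (ι → ℝ) → ℝ := fun j y => ((jac F y).updateRow a (Pi.single j 1)).det with hcdef
  have hcd : ∀ j, ContDiff ℝ 1 (c j) := contDiff_cof hF a
  have hcg : ∀ j, Continuous fun x => fderiv ℝ u x (Pi.single j 1) := fun j =>
    (hu.continuous_fderiv one_ne_zero).clm_apply continuous_const
  have hcc : ∀ j, Continuous fun x => fderiv ℝ (c j) x (Pi.single j 1) := fun j =>
    ((hcd j).continuous_fderiv one_ne_zero).clm_apply continuous_const
  have hi1 : ∀ j, Integrable fun x => fderiv ℝ u x (Pi.single j 1) * c j x := fun j =>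
    ((hcg j).mul (hcd j).continuous).integrable_of_hasCompactSupport
      ((hc.fderiv_apply ℝ (Pi.single j 1)).mul_right)
  have hi2 : ∀ j, Integrable fun x => u x * fderiv ℝ (c j) x (Pi.single j 1) := fun j =>
    (hu.continuous.mul (hcc j)).integrable_of_hasCompactSupport hc.mul_right
  calc ∫ x, ((jac F x).updateRow a (grad u x)).det
      = ∫ x, ∑ j, fderiv ℝ u x (Pi.single j 1) * c j x :=
        integral_congr_ae (Eventually.of_forall fun x => det_updateRow_grad _ a _)
    _ = ∑ j, ∫ x, fderiv ℝ u x (Pi.single j 1) * c j x :=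
        integral_finsetSum _ fun j _ => hi1 j
    _ = ∑ j, -∫ x, u x * fderiv ℝ (c j) x (Pi.single j 1) := by
        refine Finset.sum_congr rfl fun j _ => ?_
        rw [integral_mul_fderiv_eq_neg_fderiv_mul_of_integrable (hi1 j) (hi2 j)
          ((hu.continuous.mul (hcd j).continuous).integrable_of_hasCompactSupport hc.mul_right)
          (fun x _ => hu.differentiable one_ne_zero x)
          (fun x _ => (hcd j).differentiable one_ne_zero x), neg_neg]
    _ = 0 := by
        rw [Finset.sum_neg_distrib, ← integral_finsetSum _ fun j _ => hi2 j, neg_eq_zero]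
        refine integral_eq_zero_of_ae (Eventually.of_forall fun x => ?_)
        show (∑ j, u x * fderiv ℝ (c j) x (Pi.single j 1)) = 0
        rw [← Finset.mul_sum, piola hF a x, mul_zero]

/-- The degree integral. -/
def deg (Ω : Set (ι → ℝ)) (φ : (ι → ℝ) → ℝ) (F : (ι → ℝ) → (ι → ℝ)) : ℝ :=
  ∫ x in Ω, φ (F x) * (jac F x).det

/-- Homotopy invariance. -/
theorem deg_add_eq {Ω K : Set (ι → ℝ)} (hΩ : IsOpen Ω) (hK : IsCompact K) (hKΩ : K ⊆ Ω)
    {F v : (ι → ℝ) → (ι → ℝ)} (hF : ContDiff ℝ 2 F) (hv : ContDiff ℝ 2 v)
    {φ : (ι → ℝ) → ℝ} (hφ : ContDiff ℝ 1 φ)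
    (hsupp : ∀ s ∈ Icc (0 : ℝ) 1, ∀ x ∈ Ω, φ (F x + s • v x) ≠ 0 → x ∈ K) :
    deg Ω φ (fun x => F x + v x) = deg Ω φ F := by
  let Fs : ℝ → (ι → ℝ) → (ι → ℝ) := fun s x => F x + s • v x
  have hFs : ∀ s, ContDiff ℝ 2 (Fs s) := fun s => hF.add (hv.const_smul s)
  have hjac : ∀ s x, jac (Fs s) x = jac F x + s • jac v x := by
    intro s x
    ext p q
    simp only [jac, Fs, Matrix.add_apply, Matrix.smul_apply]
    rw [fderiv_fun_add (hF.differentiable (by norm_num) x)
        (show DifferentiableAt ℝ (fun y => s • v y) x from (hv.differentiable (by norm_num) x).const_smul s),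
      fderiv_fun_const_smul (hv.differentiable (by norm_num) x)]
    simp
  let g : ℝ → (ι → ℝ) → ℝ := fun s x => φ (Fs s x) * (jac (Fs s) x).det
  let g' : ℝ → (ι → ℝ) → ℝ := fun s x => fderiv ℝ φ (Fs s x) (v x) * (jac (Fs s) x).det +
    φ (Fs s x) * ∑ a, ((jac (Fs s) x).updateRow a (jac v x a)).det
  have hg : ∀ s x, HasDerivAt (fun t => g t x) (g' s x) s := by
    intro s x
    have h1 : HasDerivAt (fun t => Fs t x) (v x) s := by
      simpa [Fs] using (((hasDerivAt_id s).smul_const (v x)).const_add (F x))
    have h2 : HasDerivAt (fun t => φ (Fs t x)) (fderiv ℝ φ (Fs s x) (v x)) s :=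
      (hφ.differentiable one_ne_zero _).hasFDerivAt.comp_hasDerivAt s h1
    have h3 : HasDerivAt (fun t : ℝ => fun r => (jac F x + t • jac v x) r)
        (fun r => jac v x r) s := by
      refine hasDerivAt_pi.2 fun p => hasDerivAt_pi.2 fun q => ?_
      simpa using ((hasDerivAt_id s).mul_const (jac v x p q)).const_add (jac F x p q)
    have h4 := ((detC (ι := ι)).hasFDerivAt (fun r => (jac F x + s • jac v x) r)).comp_hasDerivAt s h3
    have h5 : HasDerivAt (fun t => (jac (Fs t) x).det)
        (∑ a, ((jac (Fs s) x).updateRow a (jac v x a)).det) s := by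
      simp only [hjac]
      exact h4.congr_deriv (by simp [ContinuousMultilinearMap.linearDeriv_apply]; rfl)
    exact h2.mul h5
  have hjc : Continuous fun p : ℝ × (ι → ℝ) => jac (Fs p.1) p.2 := by
    simp only [hjac]
    exact ((continuous_jac (hF.of_le one_le_two)).comp continuous_snd).add
      (continuous_fst.smul ((continuous_jac (hv.of_le one_le_two)).comp continuous_snd))
  have hFc : Continuous fun p : ℝ × (ι → ℝ) => Fs p.1 p.2 :=
    (hF.continuous.comp continuous_snd).add (continuous_fst.smul (hv.continuous.comp continuous_snd))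
  have hgc : Continuous fun p : ℝ × (ι → ℝ) => g p.1 p.2 :=
    (hφ.continuous.comp hFc).mul hjc.matrix_det
  have hg'c : Continuous fun p : ℝ × (ι → ℝ) => g' p.1 p.2 := by
    refine ((((hφ.continuous_fderiv one_ne_zero).comp hFc).clm_apply
      (hv.continuous.comp continuous_snd)).mul hjc.matrix_det).add
      ((hφ.continuous.comp hFc).mul (continuous_finsetSum _ fun a _ => ?_))
    refine (hjc.matrix_updateRow a ?_).matrix_det
    exact (continuous_apply a).comp ((continuous_jac (hv.of_le one_le_two)).comp continuous_snd)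
  let G : ℝ → ℝ := fun s => ∫ x in K, g s x
  have hGd : ∀ s, HasDerivAt G (∫ x in K, g' s x) s := by
    intro s
    obtain ⟨C, hC⟩ := ((isCompact_Icc (a := s - 1) (b := s + 1)).prod hK).exists_bound_of_continuousOn
      hg'c.continuousOn
    have : IsFiniteMeasure (volume.restrict K) := ⟨by simpa using hK.measure_lt_top⟩
    refine (hasDerivAt_integral_of_dominated_loc_of_deriv_le (μ := volume.restrict K) (bound := fun _ => C)
      (Icc_mem_nhds (by linarith : s - 1 < s) (by linarith : s < s + 1)) (Eventually.of_forall fun t =>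
        (hgc.comp (Continuous.prodMk_right t)).aestronglyMeasurable)
      ((hgc.comp (Continuous.prodMk_right s)).continuousOn.integrableOn_compact hK)
      (hg'c.comp (Continuous.prodMk_right s)).aestronglyMeasurable ?_ (integrable_const C)
      (Eventually.of_forall fun x t _ => hg t x)).2
    refine (ae_restrict_iff' hK.measurableSet).2 (Eventually.of_forall fun x hx t ht => ?_)
    exact hC (t, x) ⟨ht, hx⟩
  have hzero : ∀ s ∈ Ico (0 : ℝ) 1, 0 < s → ∫ x in K, g' s x = 0 := by
    intro s hs hs0
    have hvan : ∀ x ∈ Ω, x ∉ K → g' s x = 0 := by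
      intro x hx hxK
      have h1 : (fun t => g t x) =ᶠ[𝓝 s] fun _ => 0 := by
        filter_upwards [Icc_mem_nhds hs0 hs.2] with t ht
        have : φ (Fs t x) = 0 := by
          by_contra hne
          exact hxK (hsupp t ht x hx hne)
        simp [g, this]
      exact (hg s x).unique ((hasDerivAt_const s (0 : ℝ)).congr_of_eventuallyEq h1)
    have hoff : ∀ x ∈ Ω, x ∉ K → φ (Fs s x) = 0 := fun x hx hxK => by
      by_contra hne
      exact hxK (hsupp s ⟨hs0.le, hs.2.le⟩ x hx hne)
    let u : ι → (ι → ℝ) → ℝ := fun a => Ω.indicator fun x => φ (Fs s x) * v x a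
    have hu0 : ∀ a x, x ∉ K → u a x = 0 := fun a x hx => by
      by_cases hxΩ : x ∈ Ω
      · simp [u, hxΩ, hoff x hxΩ hx]
      · simp [u, hxΩ]
    have hu : ∀ a, ContDiff ℝ 1 (u a) := by
      intro a
      refine contDiff_iff_contDiffAt.2 fun x => ?_
      by_cases hx : x ∈ Ω
      · refine ContDiffAt.congr_of_eventuallyEq ?_
          ((Set.eqOn_indicator (s := Ω)).eventuallyEq_of_mem (hΩ.mem_nhds hx))
        exact ((hφ.comp ((hFs s).of_le one_le_two)).mul
          (contDiff_pi.1 (hv.of_le one_le_two) a)).contDiffAt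
      · refine ContDiffAt.congr_of_eventuallyEq (contDiffAt_const (c := (0 : ℝ))) ?_
        filter_upwards [hK.isClosed.isOpen_compl.mem_nhds (fun hk => hx (hKΩ hk))] with y hy
        exact hu0 a y hy
    have hcs : ∀ a, HasCompactSupport (u a) := fun a => HasCompactSupport.intro hK (hu0 a)
    have hgrad0 : ∀ a x, x ∉ K → grad (u a) x = 0 := by
      intro a x hx
      have h1 : u a =ᶠ[𝓝 x] fun _ => (0 : ℝ) := by
        filter_upwards [hK.isClosed.isOpen_compl.mem_nhds hx] with y hy using hu0 a y hy
      funext j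
      simp [grad, h1.fderiv_eq]
    have hpoint : ∀ x ∈ Ω, ∑ a, ((jac (Fs s) x).updateRow a (grad (u a) x)).det = g' s x := by
      intro x hx
      set J := jac (Fs s) x with hJ
      have hgr : ∀ a, grad (u a) x =
          (φ (Fs s x)) • jac v x a + (v x a) • ∑ b, grad φ (Fs s x) b • J b := by
        intro a
        have h1 : fderiv ℝ (u a) x = fderiv ℝ (fun y => φ (Fs s y) * v y a) x :=
          (((Set.eqOn_indicator (s := Ω)).eventuallyEq_of_mem (hΩ.mem_nhds hx)).fderiv_eq)
        have hd1 : DifferentiableAt ℝ (fun y => φ (Fs s y)) x :=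
          (hφ.differentiable one_ne_zero _).comp x ((hFs s).differentiable (by norm_num) x)
        have hd2 : DifferentiableAt ℝ (fun y => v y a) x :=
          differentiableAt_pi.1 (hv.differentiable (by norm_num) x) a
        funext j
        rw [grad, h1, fderiv_fun_mul hd1 hd2,
          show fderiv ℝ (fun y => v y a) x = (ContinuousLinearMap.proj a).comp (fderiv ℝ v x) from
            ((ContinuousLinearMap.proj (R := ℝ) (φ := fun _ : ι => ℝ) a).hasFDerivAt.comp x
              (hv.differentiable (by norm_num) x).hasFDerivAt).fderiv,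
          show fderiv ℝ (fun y => φ (Fs s y)) x = (fderiv ℝ φ (Fs s x)).comp (fderiv ℝ (Fs s) x) from
            ((hφ.differentiable one_ne_zero _).hasFDerivAt.comp x
              ((hFs s).differentiable (by norm_num) x).hasFDerivAt).fderiv]
        simp only [add_apply, smul_apply,
          ContinuousLinearMap.comp_apply, ContinuousLinearMap.proj_apply, Pi.add_apply,
          Pi.smul_apply, Finset.sum_apply, smul_eq_mul]
        rw [fderiv_eq_sum_grad]
        congr 1
        congr 1
        exact Finset.sum_congr rfl fun b _ => mul_comm _ _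
      have hrow : ∀ a, (J.updateRow a (grad (u a) x)).det =
          φ (Fs s x) * (J.updateRow a (jac v x a)).det + v x a * (grad φ (Fs s x) a * J.det) := by
        intro a
        rw [hgr]
        rw [Matrix.det_updateRow_add, Matrix.det_updateRow_smul, Matrix.det_updateRow_smul]
        congr 2
        refine (det_updateRow_sum_mul J a Finset.univ _ (fun b => J b)).trans ?_
        rw [Finset.sum_eq_single a]
        · rw [Matrix.updateRow_eq_self]
        · intro b _ hba
          rw [Matrix.det_zero_of_row_eq hba (by simp [Matrix.updateRow_ne hba]), mul_zero]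
        · simp
      simp only [hrow, Finset.sum_add_distrib, ← Finset.mul_sum, g']
      rw [fderiv_eq_sum_grad, Finset.sum_mul, add_comm]
      congr 1
      exact Finset.sum_congr rfl fun a _ => by ring
    calc ∫ x in K, g' s x = ∫ x in Ω, g' s x :=
          (setIntegral_eq_of_subset_of_forall_sdiff_eq_zero hΩ.measurableSet hKΩ
            fun x hx => hvan x hx.1 hx.2).symm
      _ = ∫ x in Ω, ∑ a, ((jac (Fs s) x).updateRow a (grad (u a) x)).det :=
          setIntegral_congr_fun hΩ.measurableSet fun x hx => (hpoint x hx).symm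
      _ = ∫ x, ∑ a, ((jac (Fs s) x).updateRow a (grad (u a) x)).det := by
          refine setIntegral_eq_integral_of_forall_compl_eq_zero fun x hx => ?_
          refine Finset.sum_eq_zero fun a _ => ?_
          rw [hgrad0 a x (fun hk => hx (hKΩ hk))]
          exact Matrix.det_eq_zero_of_row_eq_zero a fun b => by simp
      _ = 0 := by
          rw [integral_finsetSum]
          · exact Finset.sum_eq_zero fun a _ =>
              integral_det_updateRow_grad (hFs s) (hu a) (hcs a) a
          · intro a _
            refine Continuous.integrable_of_hasCompactSupport ?_ (HasCompactSupport.intro hK fun x hx => ?_)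
            · refine ((continuous_jac ((hFs s).of_le one_le_two)).matrix_updateRow a ?_).matrix_det
              exact continuous_pi fun j =>
                ((hu a).continuous_fderiv one_ne_zero).clm_apply continuous_const
            · rw [hgrad0 a x hx]
              exact Matrix.det_eq_zero_of_row_eq_zero a fun b => by simp
  have hG01 : G 1 = G 0 := by
    have hcont : Continuous G := continuous_iff_continuousAt.2 fun s => (hGd s).continuousAt
    obtain ⟨c, hc, hceq⟩ := exists_hasDerivAt_eq_slope G (fun s => ∫ x in K, g' s x) one_pos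
      hcont.continuousOn fun s _ => hGd s
    rw [hzero c ⟨hc.1.le, hc.2⟩ hc.1] at hceq
    simp only [sub_zero, div_one] at hceq
    linarith
  have hconv : ∀ s ∈ Icc (0 : ℝ) 1, ∫ x in Ω, g s x = G s := fun s hs =>
    setIntegral_eq_of_subset_of_forall_sdiff_eq_zero hΩ.measurableSet hKΩ fun x hx => by
      have : φ (Fs s x) = 0 := by
        by_contra hne
        exact hx.2 (hsupp s hs x hx.1 hne)
      simp [g, this]
  have h1 := hconv 1 ⟨zero_le_one, le_rfl⟩
  have h0 := hconv 0 ⟨le_rfl, zero_le_one⟩
  rw [hG01, ← h0] at h1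
  simpa [deg, g, Fs] using h1

end Vale.Agent.P174.GR
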