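import Vale.Agent.P174.GR.Split

/-!
P174: word maps with trivial coefficients at diagonal tuples, and their derivatives there.
-/

noncomputable section

namespace Vale.Agent.P174.GR

open Complex ComplexConjugate Matrix
open scoped Matrix.Norms.L2Operator

universe u

variable {P : Type u} {n k : ℕ}

/-- A diagonal tuple. -/
def diag (z : Fin n → Fin k → ℂ) : Fin n → Mat k := fun j => Matrix.diagonal (z j)

/-- The value of a letter on scalars. -/
def lmon (z : Fin n → ℂ) : (P ⊕ Fin n) × Bool → ℂ
  | (Sum.inl _, _) => 1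
  | (Sum.inr j, b) => if b then z j else conj (z j)

/-- The value of a word on scalars. -/
def mon (z : Fin n → ℂ) (L : Word P n) : ℂ := (L.map (lmon z)).prod

/-- The logarithmic derivative of a letter. -/
def llin (h : Fin n → ℂ) : (P ⊕ Fin n) × Bool → ℂ
  | (Sum.inl _, _) => 0
  | (Sum.inr j, b) => if b then h j else conj (h j)

/-- The logarithmic derivative of a word. -/
def lin (h : Fin n → ℂ) (L : Word P n) : ℂ := (L.map (llin h)).sum

/-- The exponent of an unknown in a letter. -/
def lexp (j : Fin n) : (P ⊕ Fin n) × Bool → ℤ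
  | (Sum.inl _, _) => 0
  | (Sum.inr i, b) => if i = j then (if b then 1 else -1) else 0

/-- The exponent sum of an unknown in a word. -/
def wexp (j : Fin n) (L : Word P n) : ℤ := (L.map (lexp j)).sum

/-- The number of occurrences of an unknown in a word. -/
def wcnt (j : Fin n) (L : Word P n) : ℤ := (L.map fun a => |lexp j a|).sum

theorem lin_im (h : Fin n → ℂ) (L : Word P n) :
    (lin h L).im = ∑ j, (wexp j L : ℝ) * (h j).im := by
  induction L with
  | nil => simp [lin, wexp]
  | cons a L ih =>
    simp only [lin, wexp, List.map_cons, List.sum_cons] at ih ⊢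
    simp only [Complex.add_im, Int.cast_add, add_mul, Finset.sum_add_distrib, ← ih]
    congr 1
    obtain ⟨c | i, b⟩ := a
    · simp [llin, lexp]
    · cases b <;> simp [llin, lexp, Finset.sum_ite_eq]

theorem lin_re (h : Fin n → ℂ) (L : Word P n) :
    (lin h L).re = ∑ j, (wcnt j L : ℝ) * (h j).re := by
  induction L with
  | nil => simp [lin, wcnt]
  | cons a L ih =>
    simp only [lin, wcnt, List.map_cons, List.sum_cons] at ih ⊢
    simp only [Complex.add_re, Int.cast_add, add_mul, Finset.sum_add_distrib, ← ih]
    congr 1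
    obtain ⟨c | i, b⟩ := a
    · simp [llin, lexp]
    · cases b <;> simp [llin, lexp, apply_ite abs, Finset.sum_ite_eq]

theorem sum_wcnt_le (L : Word P n) : ∑ j, wcnt j L ≤ L.length := by
  induction L with
  | nil => simp [wcnt]
  | cons a L ih =>
    simp only [wcnt, List.map_cons, List.sum_cons, List.length_cons] at ih ⊢
    rw [Finset.sum_add_distrib]
    have h1 : ∑ j, |lexp j a| ≤ 1 := by
      obtain ⟨c | i, b⟩ := a
      · simp [lexp]
      · cases b <;> simp [lexp, apply_ite abs, Finset.sum_ite_eq]
    push_cast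
    linarith

theorem wcnt_nonneg (j : Fin n) (L : Word P n) : 0 ≤ wcnt j L :=
  List.sum_nonneg fun x hx => by obtain ⟨a, -, rfl⟩ := List.mem_map.1 hx; exact abs_nonneg _

theorem mon_eq (z : Fin n → ℂ) (hz : ∀ j, ‖z j‖ = 1) (L : Word P n) :
    mon z L = ∏ j, z j ^ wexp j L := by
  have hz0 : ∀ j, z j ≠ 0 := fun j h => by simpa [h] using hz j
  induction L with
  | nil => simp [mon, wexp]
  | cons a L ih =>
    simp only [mon, wexp, List.map_cons, List.prod_cons, List.sum_cons] at ih ⊢
    simp only [zpow_add₀ (hz0 _), Finset.prod_mul_distrib, ← ih]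
    congr 1
    obtain ⟨c | i, b⟩ := a
    · simp [lmon, lexp]
    · rw [Finset.prod_eq_single i (fun j _ hj => by simp [lexp, Ne.symm hj]) (by simp)]
      cases b
      · simp [lmon, lexp, Complex.inv_eq_conj (hz i)]
      · simp [lmon, lexp]

theorem star_diag (d : Fin k → ℂ) : star (Matrix.diagonal d) = Matrix.diagonal (star d) := by
  rw [Matrix.star_eq_conjTranspose, Matrix.diagonal_conjTranspose]

theorem letter_diag (z : Fin n → Fin k → ℂ) (a : (P ⊕ Fin n) × Bool) :
    letter (fun _ => (1 : Mat k)) (diag z) a = Matrix.diagonal fun c => lmon (fun j => z j c) a := by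
  obtain ⟨c | j, b⟩ := a
  · cases b <;> simp [letter, lmon]
  · cases b
    · simp [letter, lmon, diag, star_diag]
    · simp [letter, lmon, diag]

theorem val_diag (z : Fin n → Fin k → ℂ) (L : Word P n) :
    val (fun _ => (1 : Mat k)) (diag z) L = Matrix.diagonal fun c => mon (fun j => z j c) L := by
  induction L with
  | nil => simp [val_nil, mon]
  | cons a L ih => rw [val_cons, ih, letter_diag, Matrix.diagonal_mul_diagonal]; simp [mon]

/-- The derivative of a word map with trivial coefficients. -/
def dval (z : Fin n → Fin k → ℂ) (L : Word P n) : (Fin n → Mat k) →L[ℝ] Mat k :=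
  fderiv ℝ (fun X => val (fun _ => (1 : Mat k)) X L) (diag z)

theorem dval_nil (z : Fin n → Fin k → ℂ) : dval z ([] : Word P n) = 0 := by
  simp [dval, val_nil]

/-- The linear part of a letter. -/
def lderiv : (P ⊕ Fin n) × Bool → (Fin n → Mat k) →L[ℝ] Mat k
  | (Sum.inl _, _) => 0
  | (Sum.inr j, b) => if b then ContinuousLinearMap.proj j
      else (starL' ℝ : Mat k ≃L[ℝ] Mat k).toContinuousLinearMap.comp (ContinuousLinearMap.proj j)

theorem hasFDerivAt_letter (a : (P ⊕ Fin n) × Bool) (X : Fin n → Mat k) :
    HasFDerivAt (fun Y => letter (fun _ => (1 : Mat k)) Y a) (lderiv a) X := by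
  obtain ⟨c | j, b⟩ := a
  · cases b <;> simpa [letter, lderiv] using hasFDerivAt_const (1 : Mat k) X
  · cases b
    · exact ((starL' ℝ : Mat k ≃L[ℝ] Mat k).toContinuousLinearMap.comp
        (ContinuousLinearMap.proj (R := ℝ) (φ := fun _ : Fin n => Mat k) j)).hasFDerivAt
    · exact (ContinuousLinearMap.proj (R := ℝ) (φ := fun _ : Fin n => Mat k) j).hasFDerivAt

theorem dval_cons (z : Fin n → Fin k → ℂ) (a) (L : Word P n) (H : Fin n → Mat k) :
    dval z (a :: L) H = letter (fun _ => (1 : Mat k)) (diag z) a * dval z L H +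
      lderiv a H * val (fun _ => (1 : Mat k)) (diag z) L := by
  have h1 : HasFDerivAt (fun X => val (fun _ => (1 : Mat k)) X L) (dval z L) (diag z) :=
    ((contDiff_val _ L).differentiable two_ne_zero _).hasFDerivAt
  have h2 := (hasFDerivAt_letter a (diag z)).mul' h1
  rw [dval, show (fun X => val (fun _ => (1 : Mat k)) X (a :: L)) =
    (fun Y => letter (fun _ => (1 : Mat k)) Y a) * fun X => val (fun _ => (1 : Mat k)) X L from
    funext fun X => val_cons _ _ _ _, h2.fderiv]
  rfl

theorem lderiv_J (a : (P ⊕ Fin n) × Bool) (H : Fin n → Mat k) :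
    lderiv a (J H) = J1 (lderiv a H) := by
  obtain ⟨c | j, b⟩ := a
  · simp [lderiv]
  · cases b
    · exact (J1_star (H j)).symm
    · rfl

theorem dval_J (z : Fin n → Fin k → ℂ) (L : Word P n) (H : Fin n → Mat k) :
    dval z L (J H) = J1 (dval z L H) := by
  induction L with
  | nil => simp [dval_nil]
  | cons a L ih =>
    rw [dval_cons, dval_cons, ih, lderiv_J, letter_diag, val_diag, map_add, J1_diagonal_mul,
      J1_mul_diagonal]

theorem dval_diag (z : Fin n → Fin k → ℂ) (h : Fin n → Fin k → ℂ) (L : Word P n) :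
    dval z L (diag fun j c => z j c * h j c) =
      Matrix.diagonal fun c => mon (fun j => z j c) L * lin (fun j => h j c) L := by
  induction L with
  | nil => simp [dval_nil, lin]
  | cons a L ih =>
    have hl : lderiv a (diag fun j c => z j c * h j c) =
        Matrix.diagonal fun c => lmon (fun j => z j c) a * llin (fun j => h j c) a := by
      obtain ⟨c | j, b⟩ := a
      · simp [lderiv, lmon, llin]
      · cases b
        · show star (Matrix.diagonal fun c => z j c * h j c) = _
          rw [star_diag]
          congr 1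
          funext c
          simp [lmon, llin]
        · rfl
    rw [dval_cons, ih, hl, letter_diag, val_diag, Matrix.diagonal_mul_diagonal,
      Matrix.diagonal_mul_diagonal, Matrix.diagonal_add]
    congr 1
    funext c
    simp [mon, lin]
    ring

/-- The derivative of the extended map at a root. -/
theorem fderiv_psi (K : ℝ) (L : Fin n → Word P n) (z : Fin n → Fin k → ℂ)
    (hz : ∀ i, dfct (diag z i) = 0) (hv : ∀ i, val (fun _ => (1 : Mat k)) (diag z) (L i) = 1)
    (H : Fin n → Mat k) (i : Fin n) :
    fderiv ℝ (psi K L fun _ => (1 : Mat k)) (diag z) H i =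
      dval z (L i) H + K • (star (diag z i) * H i + star (H i) * diag z i) := by
  have h1 : HasFDerivAt (fun X => val (fun _ => (1 : Mat k)) X (L i)) (dval z (L i)) (diag z) :=
    ((contDiff_val _ (L i)).differentiable two_ne_zero _).hasFDerivAt
  have h2 : HasFDerivAt (fun X : Fin n → Mat k => star (X i))
      ((starL' ℝ : Mat k ≃L[ℝ] Mat k).toContinuousLinearMap.comp (ContinuousLinearMap.proj i)) (diag z) :=
    ((starL' ℝ : Mat k ≃L[ℝ] Mat k).toContinuousLinearMap.comp
      (ContinuousLinearMap.proj (R := ℝ) (φ := fun _ : Fin n => Mat k) i)).hasFDerivAt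
  have h3 : HasFDerivAt (fun X : Fin n → Mat k => X i) (ContinuousLinearMap.proj i) (diag z) :=
    (ContinuousLinearMap.proj (R := ℝ) (φ := fun _ : Fin n => Mat k) i).hasFDerivAt
  have h4 := h1.mul' ((((h2.mul' h3).sub_const 1).const_smul K).const_add 1)
  have h5 : fderiv ℝ (psi K L fun _ => (1 : Mat k)) (diag z) H i =
      fderiv ℝ (fun X => psi K L (fun _ => (1 : Mat k)) X i) (diag z) H := by
    have hd := (contDiff_psi K L fun _ : P => (1 : Mat k)).differentiable two_ne_zero (diag z)
    rw [fderiv_apply hd i]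
    rfl
  rw [h5, show (fun X => psi K L (fun _ => (1 : Mat k)) X i) = _ from rfl]
  unfold psi dfct
  refine (congrArg (fun (f : (Fin n → Mat k) →L[ℝ] Mat k) => f H) h4.fderiv).trans ?_
  have h0 : star (diag z i) * diag z i - 1 = 0 := hz i
  simp [hv i, h0]
  abel

end Vale.Agent.P174.GR
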