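import Vale.Agent.P174.GR.Diagonal

/-!
P174: the theorem of Gerstenhaber and Rothaus for the unitary groups.
-/

noncomputable section

namespace Vale.Agent.P174.GR

open Complex ComplexConjugate Matrix MeasureTheory Filter Topology Set Function Metric
open scoped Matrix.Norms.L2Operator Pointwise

universe u

variable {P : Type u} {n k : ℕ}

/-- The unitary group is connected. -/
theorem preconnected_unitary (k : ℕ) : PreconnectedSpace (unitary (Mat k)) := by
  have h1 : ∀ u : unitary (Mat k), Joined 1 u := by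
    intro u
    have hfin : (spectrum ℂ (u : Mat k)).Finite := Matrix.finite_spectrum _
    have hinf : (range fun θ : Ioo (0 : ℝ) 1 => Complex.exp ((θ : ℝ) * I)).Infinite := by
      have : Infinite (Ioo (0 : ℝ) 1) := (Set.Ioo_infinite zero_lt_one).to_subtype
      refine Set.infinite_range_of_injective fun a b hab => Subtype.ext ?_
      have h2 := congrArg Complex.arg hab
      have hπ := Real.pi_gt_three
      simp only [Complex.arg_exp_mul_I] at h2
      rwa [(toIocMod_eq_self _).2 ⟨by linarith [a.2.1], by linarith [a.2.2]⟩,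
        (toIocMod_eq_self _).2 ⟨by linarith [b.2.1], by linarith [b.2.2]⟩] at h2
    obtain ⟨w, ⟨θ, rfl⟩, hw⟩ := (hinf.sdiff (hfin.image fun x => -x)).nonempty
    have hmem : ∀ t : ℝ, (Complex.exp (-(t * I))) • (u : Mat k) ∈ unitary (Mat k) := by
      intro t
      refine Unitary.smul_mem_of_mem ?_ u.2
      refine Unitary.mem_iff.2 ?_
      constructor <;> simp [← Complex.exp_conj, ← Complex.exp_add]
    let v : unitary (Mat k) := ⟨_, hmem θ⟩
    have h3 : ‖((v : Mat k) - (1 : unitary (Mat k)))‖ < 2 := by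
      rw [OneMemClass.coe_one, Unitary.norm_sub_one_lt_two_iff v.2]
      intro hs
      refine hw ⟨-Complex.exp ((θ : ℝ) * I), ?_, neg_neg _⟩
      have h4 : (-1 : ℂ) ∈ (Units.mk0 (Complex.exp (-((θ : ℝ) * I))) (Complex.exp_ne_zero _)) •
          spectrum ℂ (u : Mat k) := by
        rw [← spectrum.unit_smul_eq_smul]; exact hs
      obtain ⟨x, hx, hxe⟩ := h4
      have hx' : x = -Complex.exp ((θ : ℝ) * I) := by
        have h5 := congrArg (fun y => Complex.exp ((θ : ℝ) * I) * y) hxe
        simp only [Units.val_mk0, smul_eq_mul, ← mul_assoc, ← Complex.exp_add,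
          add_neg_cancel, Complex.exp_zero, one_mul, mul_neg, mul_one] at h5
        exact h5
      exact hx' ▸ hx
    refine (Unitary.joined 1 v h3).trans ⟨⟨⟨fun s => ⟨_, hmem ((1 - (s : ℝ)) * θ)⟩, ?_⟩, ?_, ?_⟩⟩
    · fun_prop
    · apply Subtype.ext; simp [v]
    · apply Subtype.ext; simp
  have : PathConnectedSpace (unitary (Mat k)) := ⟨⟨1⟩, fun a b => (h1 a).symm.trans (h1 b)⟩
  infer_instance

/-- Conjugation of a tuple. -/
def cj (t : Mat k) : (Fin n → Mat k) →ₗ[ℝ] (Fin n → Mat k) where
  toFun X i := t * X i * star t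
  map_add' X Y := by funext i; simp [mul_add, add_mul]
  map_smul' r X := by funext i; simp

theorem dfct_conj {t : Mat k} (ht : star t * t = 1) (ht' : t * star t = 1) (x : Mat k) :
    dfct (t * x * star t) = t * dfct x * star t := by
  have h : star (t * x * star t) * (t * x * star t) = t * (star x * x) * star t := by
    rw [star_mul, star_mul, star_star]
    calc t * (star x * star t) * (t * x * star t) = t * star x * (star t * t) * x * star t := by
          simp only [mul_assoc]
      _ = t * (star x * x) * star t := by rw [ht, mul_one, mul_assoc t (star x) x]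
  rw [dfct, dfct, h, mul_sub, sub_mul, mul_one, ht']

theorem val_conj {t : Mat k} (ht : star t * t = 1) (ht' : t * star t = 1) (X : Fin n → Mat k)
    (L : Word P n) :
    val (fun _ => (1 : Mat k)) (cj t X) L = t * val (fun _ => (1 : Mat k)) X L * star t := by
  induction L with
  | nil => simp [val_nil, ht']
  | cons a L ih =>
    rw [val_cons, val_cons, ih]
    have hl : letter (fun _ => (1 : Mat k)) (cj t X) a =
        t * letter (fun _ => (1 : Mat k)) X a * star t := by
      obtain ⟨c | j, b⟩ := a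
      · cases b <;> simp [letter, ht']
      · cases b
        · simp [letter, cj, mul_assoc]
        · simp [letter, cj]
    rw [hl]
    calc t * letter (fun _ => (1 : Mat k)) X a * star t * (t * val (fun _ => (1 : Mat k)) X L * star t)
        = t * letter (fun _ => (1 : Mat k)) X a * (star t * t) * val (fun _ => (1 : Mat k)) X L * star t := by
          simp only [mul_assoc]
      _ = _ := by rw [ht, mul_one]; simp only [mul_assoc]

theorem psi_conj {t : Mat k} (ht : star t * t = 1) (ht' : t * star t = 1) (K : ℝ)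
    (L : Fin n → Word P n) (X : Fin n → Mat k) :
    psi K L (fun _ => (1 : Mat k)) (cj t X) = cj t (psi K L (fun _ => (1 : Mat k)) X) := by
  funext i
  show val _ (cj t X) (L i) * (1 + K • dfct (t * X i * star t)) = t * (_ * _) * star t
  rw [val_conj ht ht', dfct_conj ht ht',
    show (1 : Mat k) + K • (t * dfct (X i) * star t) = t * (1 + K • dfct (X i)) * star t by
      simp [mul_add, add_mul, ht']]
  calc t * val (fun _ => (1 : Mat k)) X (L i) * star t * (t * (1 + K • dfct (X i)) * star t)
      = t * val (fun _ => (1 : Mat k)) X (L i) * (star t * t) * (1 + K • dfct (X i)) * star t := by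
        simp only [mul_assoc]
    _ = _ := by rw [ht, mul_one]; simp only [mul_assoc]

theorem norm_dfct_conj_le {t : Mat k} (ht : star t * t = 1) (ht' : t * star t = 1) (x : Mat k) :
    ‖dfct (t * x * star t)‖ ≤ ‖dfct x‖ := by
  have h1 : ‖t‖ ≤ 1 := by
    have h := CStarRing.norm_star_mul_self (x := t)
    rw [ht] at h
    have h' := norm_one_le' (A := Mat k)
    nlinarith [norm_nonneg t]
  rw [dfct_conj ht ht']
  calc ‖t * dfct x * star t‖ ≤ ‖t‖ * ‖dfct x‖ * ‖star t‖ :=
        (norm_mul_le _ _).trans (mul_le_mul_of_nonneg_right (norm_mul_le _ _) (norm_nonneg _))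
    _ ≤ 1 * ‖dfct x‖ * 1 := by
        rw [norm_star]
        exact mul_le_mul (mul_le_mul_of_nonneg_right h1 (norm_nonneg _)) h1 (norm_nonneg _)
          (mul_nonneg zero_le_one (norm_nonneg _))
    _ = ‖dfct x‖ := by ring

theorem offP_conj_diagonal (d : Fin k → ℂ) (X : Fin n → Mat k) :
    offP (cj (Matrix.diagonal d) X) = cj (Matrix.diagonal d) (offP X) := by
  funext i
  ext a b
  show _ = (Matrix.diagonal d * offP X i * star (Matrix.diagonal d)) a b
  rw [offP_apply, star_diag, Matrix.mul_diagonal, Matrix.diagonal_mul, offP_apply]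
  show (if a = b then 0 else (Matrix.diagonal d * X i * star (Matrix.diagonal d)) a b) = _
  rw [star_diag, Matrix.mul_diagonal, Matrix.diagonal_mul]
  split <;> simp

theorem split_diag (d : Fin n × Fin k → ℂ) :
    splitEquiv n k (d, 0) = diag fun i a => d (i, a) := by
  ext i a b
  show (if h : a = b then d (i, a) else tw a b 0) = Matrix.diagonal (fun a => d (i, a)) a b
  by_cases h : a = b
  · simp [h]
  · simp [h, tw]

theorem offP_diag (z : Fin n → Fin k → ℂ) : offP (diag z) = 0 := by
  funext i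
  ext a b
  rw [offP_apply]
  by_cases h : a = b <;> simp [h, diag]

/-- The diagonal part of the derivative, up to the unit factor. -/
def tMap (K : ℝ) (L : Fin n → Word P n) :
    (Fin n × Fin k → ℂ) →ₗ[ℝ] (Fin n × Fin k → ℂ) where
  toFun h q := ⟨(∑ j, (wcnt j (L q.1) : ℝ) * (h (j, q.2)).re) + 2 * K * (h q).re,
    ∑ j, (wexp j (L q.1) : ℝ) * (h (j, q.2)).im⟩
  map_add' h h' := by
    funext q
    apply Complex.ext <;> simp [mul_add, Finset.sum_add_distrib]
    ring
  map_smul' r h := by
    funext q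
    apply Complex.ext <;> simp [Finset.mul_sum, mul_add, mul_left_comm]

theorem tMap_injective {L : Fin n → Word P n}
    (hA : (Matrix.of fun i j => (wexp j (L i) : ℝ)).det ≠ 0) :
    Injective (tMap (k := k) (gain L) L) := by
  refine (injective_iff_map_eq_zero _).2 fun h h0 => ?_
  have him : ∀ c, (fun j => (h (j, c)).im) = 0 := fun c =>
    Matrix.eq_zero_of_mulVec_eq_zero hA (funext fun i => by
      have := congrArg Complex.im (congrFun h0 (i, c))
      simpa [tMap, Matrix.mulVec, dotProduct] using this)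
  have hre : ∀ c i, (h (i, c)).re = 0 := by
    intro c i
    obtain ⟨i₀, -, hmax⟩ := Finset.exists_max_image Finset.univ (fun j => |(h (j, c)).re|)
      ⟨i, Finset.mem_univ i⟩
    set m := |(h (i₀, c)).re| with hm
    refine abs_eq_zero.1 (le_antisymm (le_trans (hmax i (Finset.mem_univ i)) ?_) (abs_nonneg _))
    show m ≤ 0
    have h1 : (∑ j, (wcnt j (L i₀) : ℝ) * (h (j, c)).re) + 2 * gain L * (h (i₀, c)).re = 0 := by
      have := congrArg Complex.re (congrFun h0 (i₀, c))
      simpa [tMap] using this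
    have h2 : |∑ j, (wcnt j (L i₀) : ℝ) * (h (j, c)).re| ≤ ((L i₀).length : ℝ) * m := by
      calc |∑ j, (wcnt j (L i₀) : ℝ) * (h (j, c)).re|
          ≤ ∑ j, |(wcnt j (L i₀) : ℝ) * (h (j, c)).re| := Finset.abs_sum_le_sum_abs _ _
        _ ≤ ∑ j, (wcnt j (L i₀) : ℝ) * m := Finset.sum_le_sum fun j _ => by
            rw [abs_mul, abs_of_nonneg (by exact_mod_cast wcnt_nonneg j (L i₀))]
            exact mul_le_mul_of_nonneg_left (hmax j (Finset.mem_univ j))
              (by exact_mod_cast wcnt_nonneg j (L i₀))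
        _ ≤ ((L i₀).length : ℝ) * m := by
            rw [← Finset.sum_mul]
            exact mul_le_mul_of_nonneg_right (by exact_mod_cast sum_wcnt_le (L i₀)) (abs_nonneg _)
    have h3 : ((L i₀).length : ℝ) + 1 ≤ 2 * gain L := by
      have h4 : (L i₀).length < 4 ^ (L i₀).length := Nat.lt_pow_self (by norm_num)
      have h5 : (4 : ℕ) ^ (L i₀).length ≤ 4 ^ (∑ j, (L j).length) :=
        Nat.pow_le_pow_right (by norm_num)
          (Finset.single_le_sum (f := fun j => (L j).length) (fun j _ => Nat.zero_le _) (Finset.mem_univ i₀))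
      have h6 : ((L i₀).length : ℝ) + 1 ≤ 4 ^ (∑ j, (L j).length) := by
        exact_mod_cast le_trans h4 h5
      unfold gain
      linarith [one_le_gain L, show (0 : ℝ) ≤ 4 ^ (∑ j, (L j).length) by positivity]
    have h7 : 2 * gain L * m ≤ ((L i₀).length : ℝ) * m := by
      have h8 : |2 * gain L * (h (i₀, c)).re| = |∑ j, (wcnt j (L i₀) : ℝ) * (h (j, c)).re| := by
        rw [show 2 * gain L * (h (i₀, c)).re = -∑ j, (wcnt j (L i₀) : ℝ) * (h (j, c)).re by linarith,
          abs_neg]
      rw [abs_mul, abs_of_pos (show (0 : ℝ) < 2 * gain L by linarith [one_le_gain L])] at h8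
      rw [h8]; exact h2
    nlinarith [abs_nonneg ((h (i₀, c)).re)]
  funext q
  exact Complex.ext (hre q.2 q.1) (congrFun (him q.2) q.1)

/-- The scalar solutions form a finite set. -/
theorem finite_roots {L : Fin n → Word P n} (hA : (Matrix.of fun i j => wexp j (L i)).det ≠ 0) :
    {z : Fin n → Fin k → ℂ | (∀ j c, ‖z j c‖ = 1) ∧
      ∀ i c, mon (fun j => z j c) (L i) = 1}.Finite := by
  classical
  set A : Matrix (Fin n) (Fin n) ℤ := Matrix.of fun i j => wexp j (L i) with hAdef
  set N := A.det.natAbs with hN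
  have hN0 : 0 < N := Int.natAbs_pos.2 hA
  let S : Finset ℂ := Polynomial.nthRootsFinset N (1 : ℂ)
  refine (Set.Finite.pi' (fun _ => Set.Finite.pi' fun _ => S.finite_toSet)).subset ?_
  rintro z ⟨hz, hmon⟩ l c
  rw [Finset.mem_coe, Polynomial.mem_nthRootsFinset hN0]
  have hz0 : ∀ j, z j c ≠ 0 := fun j h => by simpa [h] using hz j c
  have h1 : z l c ^ A.det = 1 := by
    have h2 : (∏ j, z j c ^ (A.adjugate * A) l j) = 1 := by
      calc (∏ j, z j c ^ (A.adjugate * A) l j)
          = ∏ j, ∏ i, (z j c ^ A i j) ^ A.adjugate l i := by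
            refine Finset.prod_congr rfl fun j _ => ?_
            rw [Matrix.mul_apply, Finset.prod_congr rfl fun i _ => (zpow_mul (z j c) _ _).symm]
            induction (Finset.univ : Finset (Fin n)) using Finset.induction with
            | empty => simp
            | insert a s ha ih =>
              rw [Finset.sum_insert ha, Finset.prod_insert ha, zpow_add₀ (hz0 j), ih, mul_comm (A a j)]
        _ = ∏ i, (∏ j, z j c ^ A i j) ^ A.adjugate l i := by
            rw [Finset.prod_comm]
            exact Finset.prod_congr rfl fun i _ => (Finset.prod_zpow _ _ _)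
        _ = 1 := Finset.prod_eq_one fun i _ => by
            have h3 := hmon i c
            rw [mon_eq _ (fun j => hz j c)] at h3
            simp [hAdef, h3]
    rw [Matrix.adjugate_mul, Finset.prod_eq_single l (fun j _ hj => by simp [Matrix.one_apply_ne (Ne.symm hj)])
      (by simp)] at h2
    simpa using h2
  rcases Int.natAbs_eq A.det with h | h
  · rw [h] at h1; exact_mod_cast h1
  · rw [h, _root_.zpow_neg, inv_eq_one] at h1; exact_mod_cast h1

/-- **Gerstenhaber–Rothaus.** A square system with nonzero exponent determinant has a root in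
`U(k)` for all coefficients in `U(k)`. -/
theorem exists_unitary_root (L : Fin n → Word P n)
    (hA : (Matrix.of fun i j => wexp j (L i)).det ≠ 0)
    {g : P → Mat k} (hg : ∀ c, g c ∈ unitary (Mat k)) :
    ∃ X : Fin n → Mat k, (∀ i, X i ∈ unitary (Mat k)) ∧ ∀ i, val g X (L i) = 1 := by
  classical
  have := preconnected_unitary k
  have hAR : (Matrix.of fun i j => (wexp j (L i) : ℝ)).det ≠ 0 := by
    have h := (Int.castRingHom ℝ).map_det (Matrix.of fun i j => wexp j (L i))
    rw [show (Matrix.of fun i j => (wexp j (L i) : ℝ)) =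
      (Int.castRingHom ℝ).mapMatrix (Matrix.of fun i j => wexp j (L i)) from rfl, ← h]
    simpa using hA
  set e : (Fin n → Mat k) ≃L[ℝ] (Fin (Module.finrank ℝ (Fin n → Mat k)) → ℝ) :=
    (Module.finBasis ℝ (Fin n → Mat k)).equivFunL
  refine exists_root L e (fun r hr => ?_) hg
  set K := gain L with hK
  let Ψ := psi K L fun _ : P => (1 : Mat k)
  have hZfin := finite_roots (k := k) hA
  set Zf := hZfin.toFinset with hZf
  have hmemZ : ∀ z, z ∈ Zf ↔ (∀ j c, ‖z j c‖ = 1) ∧ ∀ i c, mon (fun j => z j c) (L i) = 1 :=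
    fun z => hZfin.mem_toFinset
  have hdd : ∀ z ∈ Zf, (∀ i, dfct (diag z i) = 0) ∧
      ∀ i, val (fun _ => (1 : Mat k)) (diag z) (L i) = 1 := by
    intro z hz
    obtain ⟨h1, h2⟩ := (hmemZ z).1 hz
    refine ⟨fun i => ?_, fun i => ?_⟩
    · show star (Matrix.diagonal (z i)) * Matrix.diagonal (z i) - 1 = 0
      rw [star_diag, Matrix.diagonal_mul_diagonal, sub_eq_zero, ← Matrix.diagonal_one]
      congr 1; funext c
      simp [Complex.conj_mul', h1]
    · rw [val_diag]; simp [h2]
  have hpsiZ : ∀ z ∈ Zf, Ψ (diag z) = 1 := fun z hz => by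
    funext i; simp [Ψ, psi, (hdd z hz).1 i, (hdd z hz).2 i]
  -- prime and symmetry
  obtain ⟨p, hpge, hp⟩ := Nat.exists_infinite_primes (k + Zf.card + 1)
  set ζ : ℂ := Complex.exp (2 * Real.pi * I / p)
  have hζ : IsPrimitiveRoot ζ p := Complex.isPrimitiveRoot_exp p hp.ne_zero
  set d : Fin k → ℂ := fun a => ζ ^ (a : ℕ)
  have hdn : ∀ a, conj (d a) * d a = 1 := fun a => by
    simp only [d, map_pow, ← mul_pow, Complex.conj_mul', hζ.norm'_eq_one hp.ne_zero]
    simp
  set t : Mat k := Matrix.diagonal d with htdef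
  have ht : star t * t = 1 := by
    rw [htdef, star_diag, Matrix.diagonal_mul_diagonal, ← Matrix.diagonal_one]
    congr 1; funext a; exact hdn a
  have ht' : t * star t = 1 := by
    rw [htdef, star_diag, Matrix.diagonal_mul_diagonal, ← Matrix.diagonal_one]
    congr 1; funext a; exact (mul_comm _ _).trans (hdn a)
  have hinv1 : ∀ X : Fin n → Mat k, cj (star t) (cj t X) = X := fun X => funext fun i => by
    show star t * (t * X i * star t) * star (star t) = X i
    rw [star_star, show star t * (t * X i * star t) * t = (star t * t) * X i * (star t * t) by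
      simp only [mul_assoc], ht, one_mul, mul_one]
  have hinv2 : ∀ X : Fin n → Mat k, cj t (cj (star t) X) = X := fun X => funext fun i => by
    show t * (star t * X i * star (star t)) * star t = X i
    rw [star_star, show t * (star t * X i * t) * star t = (t * star t) * X i * (t * star t) by
      simp only [mul_assoc], ht', one_mul, mul_one]
  let cE : (Fin n → Mat k) ≃ₗ[ℝ] (Fin n → Mat k) :=
    LinearEquiv.ofLinearMap (cj t) (cj (star t)) (LinearMap.ext hinv2) (LinearMap.ext hinv1)
  let σ := e.symm.trans (cE.toContinuousLinearEquiv.trans e)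
  have hσ : ∀ x, σ x = e (cj t (e.symm x)) := fun x => rfl
  have hitr : ∀ (m : ℕ) x, σ^[m] x = e (fun i => t ^ m * e.symm x i * star t ^ m) := by
    intro m
    induction m with
    | zero => intro x; simp
    | succ m ih =>
      intro x
      rw [iterate_succ_apply', ih, hσ, ContinuousLinearEquiv.symm_apply_apply]
      congr 1; funext i
      show t * (t ^ m * e.symm x i * star t ^ m) * star t = _
      rw [pow_succ' t, pow_succ (star t)]; simp only [mul_assoc]
  have hper : ∀ x, σ^[p] x = x := by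
    intro x
    have htp : t ^ p = 1 := by
      rw [htdef, Matrix.diagonal_pow, ← Matrix.diagonal_one]
      congr 1; funext a
      simp only [Pi.pow_apply, d, ← pow_mul, mul_comm (a : ℕ) p]
      rw [pow_mul, hζ.pow_eq_one, one_pow]
    rw [hitr, htp, ← star_pow, htp]
    simp
  have hfixed : ∀ x, σ x = x → e.symm x = diag (fun i a => e.symm x i a a) := by
    intro x hx
    have h1 : cj t (e.symm x) = e.symm x := by
      conv_rhs => rw [← hx, hσ, ContinuousLinearEquiv.symm_apply_apply]
    funext i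
    ext a b
    by_cases hab : a = b
    · subst hab; simp [diag]
    · have h2 : (t * e.symm x i * star t) a b = e.symm x i a b := congrFun (congrFun (congrFun h1 i) a) b
      rw [htdef, star_diag, Matrix.mul_diagonal, Matrix.diagonal_mul] at h2
      have h3 : d a ≠ d b := fun h => hab (Fin.ext (hζ.pow_inj (by omega) (by omega) h))
      simp only [diag, Matrix.diagonal_apply_ne _ hab]
      by_contra hne
      refine h3 ?_
      have h4 : d a * star d b = 1 := mul_right_cancel₀ hne (by rw [one_mul]; linear_combination h2)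
      calc d a = d a * (star d b * d b) := by rw [show star d b * d b = 1 from hdn b, mul_one]
        _ = d b := by rw [← mul_assoc, h4, one_mul]
  -- the small perturbation off the diagonal
  let offC := LinearMap.toContinuousLinearMap (offP (n := n) (k := k))
  have hoffC : ∀ X, offC X = offP X := fun X => rfl
  obtain ⟨B, hB⟩ := (isCompact_region L).exists_bound_of_continuousOn offC.continuous.continuousOn
  let Lz : (Fin n → Fin k → ℂ) → ((Fin n → Mat k) →ₗ[ℝ] (Fin n → Mat k)) := fun z =>
    (fderiv ℝ Ψ (diag z)).toLinearMap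
  set T := tMap (k := k) K L
  have hLz : ∀ z ∈ Zf, (∀ X, Lz z (J X) = J (Lz z X)) ∧
      ∀ h, Lz z (splitEquiv n k ((fun q => z q.1 q.2) * h, 0)) = splitEquiv n k (T h, 0) := by
    intro z hz
    obtain ⟨h1, h2⟩ := hdd z hz
    refine ⟨fun X => funext fun i => ?_, fun h => funext fun i => ?_⟩
    · show fderiv ℝ Ψ (diag z) (J X) i = J1 (fderiv ℝ Ψ (diag z) X i)
      rw [fderiv_psi K L z h1 h2, fderiv_psi K L z h1 h2, map_add, map_smul, map_add, ← dval_J]
      simp only [diag, star_diag, J1_diagonal_mul, J1_mul_diagonal, J1_star]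
      rfl
    · show fderiv ℝ Ψ (diag z) _ i = _
      rw [split_diag, split_diag, fderiv_psi K L z h1 h2]
      have h3 := dval_diag z (fun j c => h (j, c)) (L i)
      simp only [Pi.mul_apply] at h3 ⊢
      rw [h3]
      simp only [diag, star_diag, Matrix.diagonal_mul_diagonal, Matrix.diagonal_add, ← Matrix.diagonal_smul]
      congr 1
      funext c
      have hzc : conj (z i c) * z i c = 1 := by simp [Complex.conj_mul', ((hmemZ z).1 hz).1]
      have e1 : star (z i) c * (z i c * h (i, c)) +
          (star fun a => z i a * h (i, a)) c * z i c = (2 * (h (i, c)).re : ℝ) := by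
        simp only [Pi.star_apply, star_mul', RCLike.star_def]
        rw [show conj (z i c) * (z i c * h (i, c)) + conj (z i c) * conj (h (i, c)) * z i c =
          (conj (z i c) * z i c) * (h (i, c) + conj (h (i, c))) by ring, hzc, one_mul, Complex.add_conj]
      simp only [Pi.smul_apply, e1, ((hmemZ z).1 hz).2 i c, one_mul]
      apply Complex.ext <;> simp [T, tMap, lin_re, lin_im]
      ring
  have hsign := fun z (hz : z ∈ Zf) => det_sign (Lz z) (hLz z hz).1 T (tMap_injective hAR)
    (fun q => z q.1 q.2) (hLz z hz).2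
  have hbadfin : (⋃ z ∈ (Zf : Set (Fin n → Fin k → ℂ)),
      {ε : ℝ | LinearMap.det (Lz z + ε • offP) = 0}).Finite :=
    Zf.finite_toSet.biUnion fun z hz => (hsign z hz).1
  have hb0 : (0 : ℝ) < 1 / (96 * (|B| + 1)) := by positivity
  obtain ⟨ε, hε, hεbad⟩ := ((Set.Ioo_infinite hb0).sdiff hbadfin).nonempty
  have hεb : ∀ X ∈ region (Mat k) L, ‖ε • offP X‖ ≤ 1 / 96 := by
    intro X hX
    rw [norm_smul, Real.norm_eq_abs, abs_of_pos hε.1]
    calc ε * ‖offP X‖ ≤ 1 / (96 * (|B| + 1)) * (|B| + 1) :=
          mul_le_mul hε.2.le (by linarith [hB X hX, hoffC X ▸ hB X hX, le_abs_self B]) (norm_nonneg _) hb0.le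
      _ = 1 / 96 := by field_simp
  -- the perturbed map in coordinates
  let F : (Fin (Module.finrank ℝ (Fin n → Mat k)) → ℝ) → (Fin (Module.finrank ℝ (Fin n → Mat k)) → ℝ) :=
    fun x => e (Ψ (e.symm x) + ε • offC (e.symm x))
  have hF : ContDiff ℝ 2 F :=
    e.contDiff.comp (((contDiff_psi K L _).comp e.symm.contDiff).add
      ((offC.contDiff.comp e.symm.contDiff).const_smul ε))
  have hFeq : ∀ x, F (σ x) = σ (F x) := by
    intro x
    simp only [F, hσ, ContinuousLinearEquiv.symm_apply_apply, hoffC, Ψ]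
    rw [psi_conj ht ht', htdef, offP_conj_diagonal]
    simp only [map_add, map_smul]
  have hy : σ (e 1) = e 1 := by
    rw [hσ, ContinuousLinearEquiv.symm_apply_apply]
    congr 1; funext i
    show t * 1 * star t = 1
    rw [mul_one, ht']
  have hFderiv : ∀ z, (fderiv ℝ F (e (diag z))).det = LinearMap.det (Lz z + ε • offP) := by
    intro z
    have h1 : HasFDerivAt (fun X => Ψ X + ε • offC X) (fderiv ℝ Ψ (diag z) + ε • offC)
        (e.symm (e (diag z))) := by
      rw [ContinuousLinearEquiv.symm_apply_apply]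
      exact (((contDiff_psi K L _).differentiable two_ne_zero _).hasFDerivAt).add
        (offC.hasFDerivAt.const_smul ε)
    have h2 : HasFDerivAt F ((e : _ →L[ℝ] _).comp ((fderiv ℝ Ψ (diag z) + ε • offC).comp
        (e.symm : _ →L[ℝ] _))) (e (diag z)) :=
      e.hasFDerivAt.comp (e (diag z)) (h1.comp (e (diag z)) e.symm.hasFDerivAt)
    rw [h2.fderiv, ContinuousLinearMap.det]
    exact LinearMap.det_conj (Lz z + ε • offP) e.toLinearEquiv
  have hC : IsCompact (e.symm ⁻¹' region (Mat k) L) :=
    e.symm.toHomeomorph.isCompact_preimage.2 (isCompact_region L)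
  set Z₀ := Zf.image fun z => e (diag z)
  have hregion : ∀ z ∈ Zf, diag z ∈ region (Mat k) L := fun z hz i => by
    rw [(hdd z hz).1 i, norm_zero]
    exact div_nonneg zero_le_one (by linarith [one_le_gain L])
  have hFZ : ∀ z ∈ Zf, F (e (diag z)) = e 1 := fun z hz => by
    simp [F, hpsiZ z hz, hoffC, offP_diag]
  have hfixZ : ∀ z, σ (e (diag z)) = e (diag z) := fun z => by
    rw [hσ, ContinuousLinearEquiv.symm_apply_apply]
    congr 1; funext i
    show t * Matrix.diagonal (z i) * star t = Matrix.diagonal (z i)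
    rw [htdef, star_diag, Matrix.diagonal_mul_diagonal, Matrix.diagonal_mul_diagonal]
    congr 1; funext a
    simp only [Pi.star_apply, RCLike.star_def]
    linear_combination (z i a) * hdn a
  have hZ₀ : ∀ x, x ∈ Z₀ ↔ x ∈ e.symm ⁻¹' region (Mat k) L ∧ F x = e 1 ∧ σ x = x := by
    intro x
    constructor
    · intro hx
      obtain ⟨z, hz, rfl⟩ := Finset.mem_image.1 hx
      exact ⟨by simpa using hregion z hz, hFZ z hz, hfixZ z⟩
    · rintro ⟨hxC, hxF, hxσ⟩
      set z : Fin n → Fin k → ℂ := fun i a => e.symm x i a a with hzdef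
      have hxd := hfixed x hxσ
      have hpsi : Ψ (e.symm x) = 1 := by
        have h1 : Ψ (e.symm x) + ε • offC (e.symm x) = 1 := e.injective hxF
        rw [hxd, hoffC, offP_diag, smul_zero, add_zero] at h1
        rwa [hxd]
      obtain ⟨hu, hv⟩ := root_of_psi (L := L) (g := fun _ : P => (1 : Mat k))
        (fun _ => one_mem (unitary (Mat k))) hxC hpsi
      refine Finset.mem_image.2 ⟨z, (hmemZ z).2 ⟨fun j c => ?_, fun i c => ?_⟩, ?_⟩
      · have h2 := (Unitary.mem_iff.1 (hu j)).1
        rw [hxd, diag, star_diag, Matrix.diagonal_mul_diagonal, ← Matrix.diagonal_one] at h2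
        have h3 : conj (z j c) * z j c = 1 := congrFun (Matrix.diagonal_injective h2) c
        rw [Complex.conj_mul'] at h3
        have h4 : ‖z j c‖ ^ 2 = 1 := by exact_mod_cast h3
        exact (pow_eq_one_iff_of_nonneg (norm_nonneg _) two_ne_zero).1 h4
      · have h2 := hv i
        rw [hxd, val_diag, ← Matrix.diagonal_one] at h2
        exact congrFun (Matrix.diagonal_injective h2) c
      · rw [← hxd, ContinuousLinearEquiv.apply_symm_apply]
  have hregZ : ∀ x ∈ Z₀, (fderiv ℝ F x).det ≠ 0 := by
    intro x hx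
    obtain ⟨z, hz, rfl⟩ := Finset.mem_image.1 hx
    rw [hFderiv]
    exact fun h0 => hεbad (mem_biUnion (Finset.mem_coe.2 hz) h0)
  have hinvC : ∀ x ∈ e.symm ⁻¹' region (Mat k) L, σ x ∈ e.symm ⁻¹' region (Mat k) L := by
    intro x hx i
    rw [hσ, ContinuousLinearEquiv.symm_apply_apply]
    exact (norm_dfct_conj_le ht ht' _).trans (hx i)
  set eb : ℝ := 1 / (96 * (‖e.symm.toContinuousLinearMap‖ + 1)) with hebdef
  obtain ⟨G, hG, hGeq, hGe, hGfix, hGnear, hGreg⟩ := exists_regular_equivariant σ hp hper hF hFeq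
    (e 1) hy hC hinvC Z₀ hZ₀ hregZ (e := eb) (by positivity)
  have hclose : ∀ x ∈ dom L e, ‖e.symm (G x) - Ψ (e.symm x)‖ ≤ 1 / 48 := by
    intro x hx
    have hxC := dom_subset L e hx
    have h1 : ‖e.symm (G x - F x)‖ ≤ 1 / 96 := by
      calc ‖e.symm (G x - F x)‖ ≤ ‖e.symm.toContinuousLinearMap‖ * ‖G x - F x‖ :=
            ContinuousLinearMap.le_opNorm e.symm.toContinuousLinearMap _
        _ ≤ (‖e.symm.toContinuousLinearMap‖ + 1) * eb :=
            mul_le_mul (le_add_of_nonneg_right zero_le_one) (hGe x hxC) (norm_nonneg _) (by positivity)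
        _ = 1 / 96 := by rw [hebdef]; field_simp
    have h2 : e.symm (G x) - Ψ (e.symm x) = e.symm (G x - F x) + ε • offP (e.symm x) := by
      simp [F, hoffC]; abel
    rw [h2]
    linarith [norm_add_le (e.symm (G x - F x)) (ε • offP (e.symm x)), hεb _ hxC]
  have hk2C : ker₂ L e ⊆ e.symm ⁻¹' region (Mat k) L :=
    (ker₂_subset_dom L e).trans (dom_subset L e)
  have hregK : ∀ x ∈ ker₂ L e, G x = e 1 → (fderiv ℝ G x).det ≠ 0 := fun x hx => hGreg x (hk2C hx)
  set Z := (finite_regular_preimage hG (isCompact_ker₂ L e) (e 1) hregK).toFinset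
  have hZ : ∀ x, x ∈ Z ↔ x ∈ ker₂ L e ∧ G x = e 1 := fun x => Set.Finite.mem_toFinset _
  obtain ⟨r₁, hr₁, hdeg⟩ := deg_eq_sum hG (isOpen_dom L e) (isCompact_ker₂ L e) (ker₂_subset_dom L e)
    (e 1) Z hZ (fun x hx => hregK x ((hZ x).1 hx).1 ((hZ x).1 hx).2)
  -- fixed preimages
  have hfilter : Z.filter (fun x => σ x = x) = Z₀ := by
    ext x
    rw [Finset.mem_filter, hZ, hZ₀]
    constructor
    · rintro ⟨⟨hxk, hxG⟩, hxσ⟩
      exact ⟨hk2C hxk, (hGfix x hxσ).symm.trans hxG, hxσ⟩
    · rintro hx
      obtain ⟨z, hz, rfl⟩ := Finset.mem_image.1 ((hZ₀ x).2 hx)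
      refine ⟨⟨fun i => ?_, (hGfix _ hx.2.2).trans hx.2.1⟩, hx.2.2⟩
      rw [ContinuousLinearEquiv.symm_apply_apply, (hdd z hz).1 i, norm_zero]
      exact div_nonneg zero_le_one (by linarith [one_le_gain L])
  have hZσ : ∀ x ∈ Z, σ x ∈ Z := by
    intro x hx
    obtain ⟨hxk, hxG⟩ := (hZ x).1 hx
    refine (hZ _).2 ⟨fun i => ?_, by rw [hGeq, hxG, hy]⟩
    rw [hσ, ContinuousLinearEquiv.symm_apply_apply]
    exact (norm_dfct_conj_le ht ht' _).trans (hxk i)
  have hsgnσ : ∀ x ∈ Z, sgn G (σ x) = sgn G x := by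
    intro x _
    have h1 : HasFDerivAt (fun v => G (σ v)) ((fderiv ℝ G (σ x)).comp (σ : _ →L[ℝ] _)) x :=
      (hG.differentiable two_ne_zero _).hasFDerivAt.comp x σ.hasFDerivAt
    have h2 : HasFDerivAt (fun v => σ (G v)) ((σ : _ →L[ℝ] _).comp (fderiv ℝ G x)) x :=
      σ.hasFDerivAt.comp x (hG.differentiable two_ne_zero _).hasFDerivAt
    rw [funext hGeq] at h1
    have h3 := congrArg (fun M : _ →L[ℝ] _ => LinearMap.det M.toLinearMap) (h1.unique h2)
    simp only [ContinuousLinearMap.toLinearMap_comp, LinearMap.det_comp] at h3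
    have h4 : (fderiv ℝ G (σ x)).det = (fderiv ℝ G x).det :=
      mul_right_cancel₀ (LinearEquiv.isUnit_det' σ.toLinearEquiv).ne_zero (h3.trans (mul_comm _ _))
    unfold sgn
    rw [h4]
  set s₀ : ℤ := if 0 < LinearMap.det T then 1 else -1 with hs₀
  have hsgn0 : ∀ x ∈ Z₀, sgn G x = s₀ := by
    intro x hx
    have hne := hregZ x hx
    have heq2 : fderiv ℝ G x = fderiv ℝ F x := (hGnear x hx).fderiv_eq
    obtain ⟨z, hz, rfl⟩ := Finset.mem_image.1 hx
    rw [sgn, heq2, hFderiv, hs₀]
    rw [hFderiv] at hne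
    have h5 := (hsign z hz).2 ε hne
    congr 1
    refine propext ⟨fun h => ?_, fun h => ?_⟩
    · exact pos_of_mul_pos_left h5 h.le
    · exact pos_of_mul_pos_right h5 h.le
  have hsum : (∑ x ∈ Z, sgn G x) ≠ 0 := by
    intro h0
    have h1 := sum_modEq Z σ hp hper hZσ (sgn G) (fun x => by unfold sgn; split <;> simp) hsgnσ
    rw [h0, hfilter, Finset.sum_congr rfl hsgn0, Finset.sum_const, nsmul_eq_mul] at h1
    have : Fact p.Prime := ⟨hp⟩
    push_cast at h1
    have hcard : (Z₀.card : ZMod p) ≠ 0 := by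
      rw [Ne, ZMod.natCast_eq_zero_iff]
      refine Nat.not_dvd_of_pos_of_lt ?_ ?_
      · refine Finset.card_pos.2 ⟨e (diag fun _ _ => 1), Finset.mem_image.2 ⟨_, (hmemZ _).2
          ⟨fun _ _ => by simp, fun i c => ?_⟩, rfl⟩⟩
        rw [mon_eq _ (fun _ => by simp)]
        simp
      · exact Finset.card_image_le.trans_lt (by omega)
    have hs : (s₀ : ZMod p) ≠ 0 := by rw [hs₀]; split <;> simp
    exact mul_ne_zero hcard hs h1.symm
  -- the test function
  have hcont : ∀ᶠ u in 𝓝 (e 1), ‖e.symm u - 1‖ < min r (1 / 48) ∧ u ∈ ball (e 1) r₁ := by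
    refine ((e.symm.continuous.sub continuous_const).norm.continuousAt.eventually_lt continuousAt_const
      ?_).and (ball_mem_nhds _ hr₁)
    show ‖e.symm (e 1) - 1‖ < min r (1 / 48)
    rw [ContinuousLinearEquiv.symm_apply_apply, sub_self, norm_zero]
    exact lt_min hr (by norm_num)
  obtain ⟨ρ, hρ, hball⟩ := Metric.eventually_nhds_iff_ball.1 hcont
  let φ : ContDiffBump (e 1) := ⟨ρ / 2, ρ, half_pos hρ, half_lt_self hρ⟩
  have hφs : ∀ u, φ u ≠ 0 → u ∈ ball (e 1) ρ := fun u hu => φ.support_eq.le hu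
  refine ⟨φ, φ.contDiff, fun u hu => (hball u (hφs u hu)).1.trans_le (min_le_left _ _), ?_⟩
  have hφs' : ∀ u, φ u ≠ 0 → ‖e.symm u - 1‖ ≤ 1 / 48 := fun u hu =>
    (hball u (hφs u hu)).1.le.trans (min_le_right _ _)
  rw [← deg_perturb L e (fun _ => one_mem (unitary (Mat k))) hG hclose φ.contDiff hφs',
    hdeg φ φ.continuous (fun u hu => (hball u (hφs u hu)).2) fun x hx hne =>
      mem_ker₂ L e (fun _ => one_mem (unitary (Mat k))) hx (hclose x hx) (hφs' _ hne)]
  exact mul_ne_zero (Int.cast_ne_zero.2 hsum) φ.integral_pos.ne'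

end Vale.Agent.P174.GR
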