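import Vale.Agent.P174.GR.Degree

/-!
P174: the degree integral counts regular preimages with their signs.
-/

noncomputable section

namespace Vale.Agent.P174.GR

open MeasureTheory Filter Topology Set Function Metric

variable {ι : Type} [Fintype ι] [DecidableEq ι]

/-- The sign of the Jacobian determinant. -/
def sgn (F : (ι → ℝ) → (ι → ℝ)) (x : ι → ℝ) : ℤ := if 0 < (fderiv ℝ F x).det then 1 else -1

omit [DecidableEq ι] in
theorem continuous_det_fderiv {F : (ι → ℝ) → (ι → ℝ)} (hF : ContDiff ℝ 1 F) :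
    Continuous fun x => (fderiv ℝ F x).det := by
  classical
  simp only [← det_jac]
  exact (continuous_jac hF).matrix_det

omit [DecidableEq ι] in
/-- Near a regular point the map is injective, open, and the sign is constant. -/
theorem regular_nhds {F : (ι → ℝ) → (ι → ℝ)} (hF : ContDiff ℝ 2 F) {z : ι → ℝ}
    (hz : (fderiv ℝ F z).det ≠ 0) {W : Set (ι → ℝ)} (hW : W ∈ 𝓝 z) :
    ∃ U : Set (ι → ℝ), IsOpen U ∧ z ∈ U ∧ U ⊆ W ∧ InjOn F U ∧ F '' U ∈ 𝓝 (F z) ∧
      ∀ x ∈ U, |(fderiv ℝ F x).det| = sgn F z * (fderiv ℝ F x).det := by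
  have hd : HasFDerivAt F ((((fderiv ℝ F z).toContinuousLinearEquivOfDetNeZero hz) :
      (ι → ℝ) ≃L[ℝ] (ι → ℝ)) : (ι → ℝ) →L[ℝ] (ι → ℝ)) z := by
    rw [ContinuousLinearMap.coe_toContinuousLinearEquivOfDetNeZero]
    exact (hF.differentiable two_ne_zero z).hasFDerivAt
  set e := hF.contDiffAt.toOpenPartialHomeomorph F hd two_ne_zero with he
  have hcoe : (e : (ι → ℝ) → (ι → ℝ)) = F := rfl
  have hc := continuous_det_fderiv (hF.of_le one_le_two)
  have hsign : ∀ᶠ x in 𝓝 z, |(fderiv ℝ F x).det| = sgn F z * (fderiv ℝ F x).det := by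
    rcases lt_or_gt_of_ne hz with h | h
    · filter_upwards [hc.continuousAt.eventually_lt continuousAt_const h] with x hx
      simp [sgn, not_lt.2 h.le, abs_of_neg hx]
    · filter_upwards [continuousAt_const.eventually_lt hc.continuousAt h] with x hx
      simp [sgn, h, abs_of_pos hx]
  have hsrc : e.source ∈ 𝓝 z :=
    e.open_source.mem_nhds (hF.contDiffAt.mem_toOpenPartialHomeomorph_source hd two_ne_zero)
  obtain ⟨U, hUsub, hUo, hzU⟩ := _root_.mem_nhds_iff.1 (inter_mem (inter_mem hW hsrc) hsign)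
  refine ⟨U, hUo, hzU, fun x hx => (hUsub hx).1.1, ?_, ?_, fun x hx => (hUsub hx).2⟩
  · rw [← hcoe]
    exact e.injOn.mono fun x hx => (hUsub hx).1.2
  · have h1 : IsOpen (e '' U) := e.isOpen_image_of_subset_source hUo fun x hx => (hUsub hx).1.2
    rw [hcoe] at h1
    exact h1.mem_nhds (mem_image_of_mem F hzU)

omit [DecidableEq ι] in
/-- A compact set contains only finitely many regular preimages. -/
theorem finite_regular_preimage {F : (ι → ℝ) → (ι → ℝ)} (hF : ContDiff ℝ 2 F) {K : Set (ι → ℝ)}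
    (hK : IsCompact K) (y : ι → ℝ) (hreg : ∀ z ∈ K, F z = y → (fderiv ℝ F z).det ≠ 0) :
    {z | z ∈ K ∧ F z = y}.Finite := by
  have hc : IsCompact {z | z ∈ K ∧ F z = y} :=
    hK.inter_right (isClosed_singleton.preimage hF.continuous)
  refine hc.finite (isDiscrete_iff_forall_mem_exists_isOpen.2 fun z hz => ?_)
  obtain ⟨U, hUo, hzU, -, hinj, -, -⟩ := regular_nhds hF (hreg z hz.1 hz.2) univ_mem
  exact ⟨U, hUo, Set.ext fun x => ⟨fun hx => hinj hx.1 hzU (hx.2.2.trans hz.2.symm),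
    fun hx => by rw [mem_singleton_iff.1 hx]; exact ⟨hzU, hz⟩⟩⟩

/-- The degree integral at a regular value counts preimages with signs. -/
theorem deg_eq_sum {F : (ι → ℝ) → (ι → ℝ)} (hF : ContDiff ℝ 2 F) {Ω K : Set (ι → ℝ)}
    (hΩ : IsOpen Ω) (hK : IsCompact K) (hKΩ : K ⊆ Ω) (y : ι → ℝ) (Z : Finset (ι → ℝ))
    (hZ : ∀ z, z ∈ Z ↔ z ∈ K ∧ F z = y) (hreg : ∀ z ∈ Z, (fderiv ℝ F z).det ≠ 0) :
    ∃ r > 0, ∀ φ : (ι → ℝ) → ℝ, Continuous φ → (∀ u, φ u ≠ 0 → u ∈ ball y r) →
      (∀ x ∈ Ω, φ (F x) ≠ 0 → x ∈ K) →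
        deg Ω φ F = (∑ z ∈ Z, sgn F z : ℤ) * ∫ u, φ u := by
  classical
  obtain ⟨S, hS, hSd⟩ := Set.Finite.t2_separation Z.finite_toSet
  have hU : ∀ z ∈ Z, ∃ U : Set (ι → ℝ), IsOpen U ∧ z ∈ U ∧ U ⊆ Ω ∩ S z ∧ InjOn F U ∧
      F '' U ∈ 𝓝 y ∧ ∀ x ∈ U, |(fderiv ℝ F x).det| = sgn F z * (fderiv ℝ F x).det := fun z hz => by
    have hz' := (hZ z).1 hz
    obtain ⟨U, h1, h2, h3, h4, h5, h6⟩ := regular_nhds hF (hreg z hz)
      (inter_mem (hΩ.mem_nhds (hKΩ hz'.1)) ((hS z).2.mem_nhds (hS z).1))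
    exact ⟨U, h1, h2, h3, h4, hz'.2 ▸ h5, h6⟩
  choose! U hUo hzU hUsub hinj himg hsign using hU
  have hrest : IsClosed (F '' (K \ ⋃ z ∈ Z, U z)) :=
    ((hK.diff (isOpen_biUnion hUo)).image hF.continuous).isClosed
  have hy : y ∈ (⋂ z ∈ Z, F '' U z) ∩ (F '' (K \ ⋃ z ∈ Z, U z))ᶜ := by
    refine ⟨mem_iInter₂.2 fun z hz => mem_of_mem_nhds (himg z hz), ?_⟩
    rintro ⟨x, ⟨hxK, hx⟩, hxy⟩
    exact hx (mem_biUnion ((hZ x).2 ⟨hxK, hxy⟩) (hzU x ((hZ x).2 ⟨hxK, hxy⟩)))
  have hN : (⋂ z ∈ Z, F '' U z) ∩ (F '' (K \ ⋃ z ∈ Z, U z))ᶜ ∈ 𝓝 y :=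
    inter_mem ((biInter_finset_mem Z).2 himg) (hrest.isOpen_compl.mem_nhds hy.2)
  obtain ⟨r, hr, hrsub⟩ := Metric.mem_nhds_iff.1 hN
  refine ⟨r, hr, fun φ hφ hsupp hK' => ?_⟩
  have hdc := continuous_det_fderiv (hF.of_le one_le_two)
  have hint : IntegrableOn (fun x => φ (F x) * (fderiv ℝ F x).det) K :=
    ((hφ.comp hF.continuous).mul hdc).continuousOn.integrableOn_compact hK
  have hUΩ : (⋃ z ∈ Z, U z) ⊆ Ω := iUnion₂_subset fun z hz => (hUsub z hz).trans inter_subset_left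
  have hzero : ∀ x ∈ Ω \ ⋃ z ∈ Z, U z, φ (F x) * (fderiv ℝ F x).det = 0 := by
    rintro x ⟨hxΩ, hxU⟩
    by_contra hne
    have h1 : φ (F x) ≠ 0 := left_ne_zero_of_mul hne
    exact (hrsub (hsupp _ h1)).2 ⟨x, ⟨hK' x hxΩ h1, hxU⟩, rfl⟩
  have hUint : ∀ z ∈ Z, IntegrableOn (fun x => φ (F x) * (fderiv ℝ F x).det) (U z) := by
    intro z hz
    refine (hint.of_forall_sdiff_eq_zero (hUo z hz).measurableSet fun x hx => ?_)
    by_contra hne
    exact hx.2 (hK' x ((hUsub z hz) hx.1).1 (left_ne_zero_of_mul hne))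
  simp only [deg, det_jac]
  rw [setIntegral_eq_of_subset_of_forall_sdiff_eq_zero hΩ.measurableSet hUΩ hzero,
    integral_biUnion_finset Z (fun z hz => (hUo z hz).measurableSet) (fun z hz z' hz' hne =>
      (hSd hz hz' hne).mono ((hUsub z hz).trans inter_subset_right)
        ((hUsub z' hz').trans inter_subset_right)) hUint,
    Int.cast_sum, Finset.sum_mul]
  refine Finset.sum_congr rfl fun z hz => ?_
  have hs : ((sgn F z : ℤ) : ℝ) * (sgn F z : ℤ) = 1 := by
    unfold sgn; split <;> norm_num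
  calc ∫ x in U z, φ (F x) * (fderiv ℝ F x).det
      = ∫ x in U z, ((sgn F z : ℤ) : ℝ) * (|(fderiv ℝ F x).det| • φ (F x)) := by
        refine setIntegral_congr_fun (hUo z hz).measurableSet fun x hx => ?_
        simp only [hsign z hz x hx, smul_eq_mul]
        calc φ (F x) * (fderiv ℝ F x).det
            = (((sgn F z : ℤ) : ℝ) * (sgn F z : ℤ)) * (φ (F x) * (fderiv ℝ F x).det) := by
              rw [hs, one_mul]
          _ = _ := by ring
    _ = (sgn F z : ℤ) * ∫ u in F '' U z, φ u := by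
        rw [integral_const_mul, integral_image_eq_integral_abs_det_fderiv_smul volume
          (hUo z hz).measurableSet
          (fun x _ => (hF.differentiable two_ne_zero x).hasFDerivAt.hasFDerivWithinAt)
          (hinj z hz) φ]
    _ = (sgn F z : ℤ) * ∫ u, φ u := by
        congr 1
        refine setIntegral_eq_integral_of_forall_compl_eq_zero fun u hu => ?_
        by_contra hne
        exact hu (mem_iInter₂.1 (hrsub (hsupp u hne)).1 z hz)

omit [Fintype ι] [DecidableEq ι] in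
/-- Counting modulo a prime along a permutation of prime order. -/
theorem card_modEq {α : Type*} [DecidableEq α] (s : Finset α) (g : α → α) {p : ℕ} (hp : p.Prime)
    (hper : ∀ x, g^[p] x = x) (hs : ∀ x ∈ s, g x ∈ s) :
    (s.filter fun x => g x = x).card ≡ s.card [MOD p] := by
  have : Fact p.Prime := ⟨hp⟩
  have hinj : Injective g := by
    intro a b h
    have h1 := congrArg (g^[p - 1]) h
    rwa [← iterate_succ_apply, ← iterate_succ_apply, Nat.sub_one, Nat.succ_pred hp.ne_zero,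
      hper, hper] at h1
  let f : s → s := fun x => ⟨g x, hs x x.2⟩
  have hf : Bijective f := (Finite.injective_iff_bijective).1 fun a b h =>
    Subtype.ext (hinj (congrArg Subtype.val h))
  let σ : Equiv.Perm s := Equiv.ofBijective f hf
  have hpow : ∀ (n : ℕ) (x : s), (((σ ^ n) x : s) : α) = g^[n] x := by
    intro n
    induction n with
    | zero => simp
    | succ n ih => intro x; rw [pow_succ, Equiv.Perm.mul_apply, ih, iterate_succ_apply]; rfl
  have hσ : σ ^ p ^ 1 = 1 := by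
    refine Equiv.ext fun x => Subtype.ext ?_
    simp [hpow, hper]
  have h := Equiv.Perm.card_compl_support_modEq hσ
  rw [Fintype.card_coe] at h
  have hc : σ.supportᶜ.card = (s.filter fun x => g x = x).card := by
    refine Finset.card_bij (fun x _ => (x : α)) ?_ ?_ ?_
    · intro x hx
      simp only [Finset.mem_compl, Equiv.Perm.mem_support, not_not] at hx
      exact Finset.mem_filter.2 ⟨x.2, congrArg Subtype.val hx⟩
    · intro a _ b _ hab; exact Subtype.ext hab
    · intro b hb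
      obtain ⟨hb1, hb2⟩ := Finset.mem_filter.1 hb
      exact ⟨⟨b, hb1⟩, by simp [σ, f, hb2], rfl⟩
  rwa [hc] at h

omit [Fintype ι] [DecidableEq ι] in
/-- A sum of signs is congruent modulo a prime to the sum over the fixed points. -/
theorem sum_modEq {α : Type*} [DecidableEq α] (s : Finset α) (g : α → α) {p : ℕ} (hp : p.Prime)
    (hper : ∀ x, g^[p] x = x) (hs : ∀ x ∈ s, g x ∈ s) (σ : α → ℤ) (hσ : ∀ x, σ x = 1 ∨ σ x = -1)
    (hinv : ∀ x ∈ s, σ (g x) = σ x) :
    ((∑ x ∈ s, σ x : ℤ) : ZMod p) = ((∑ x ∈ s.filter (fun x => g x = x), σ x : ℤ) : ZMod p) := by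
  have key : ∀ t : Finset α, ∑ x ∈ t, σ x = 2 * ((t.filter fun x => σ x = 1).card : ℤ) - t.card := by
    intro t
    induction t using Finset.induction with
    | empty => simp
    | insert a t ha ih =>
      rw [Finset.sum_insert ha, ih, Finset.filter_insert, Finset.card_insert_of_notMem ha]
      rcases hσ a with h | h
      · rw [if_pos h, Finset.card_insert_of_notMem (by simp [ha]), h]; push_cast; ring
      · rw [if_neg (by rw [h]; decide), h]; push_cast; ring
  have h1 := (ZMod.natCast_eq_natCast_iff _ _ _).2 (card_modEq s g hp hper hs)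
  have h2 := (ZMod.natCast_eq_natCast_iff _ _ _).2
    (card_modEq (s.filter fun x => σ x = 1) g hp hper fun x hx => by
      obtain ⟨hx1, hx2⟩ := Finset.mem_filter.1 hx
      exact Finset.mem_filter.2 ⟨hs x hx1, (hinv x hx1).trans hx2⟩)
  rw [Finset.filter_comm] at h2
  rw [key, key]
  push_cast
  rw [h1, h2]

end Vale.Agent.P174.GR
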