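import Vale.Agent.P174.GR.Local

/-!
P174: equivariant perturbation making the preimages of a fixed value regular.
-/

noncomputable section

namespace Vale.Agent.P174.GR

open MeasureTheory Filter Topology Set Function Metric

variable {ι : Type} [Fintype ι]

section bump

variable (g : (ι → ℝ) ≃L[ℝ] (ι → ℝ)) (p : ℕ)

/-- The equivariant extension of a translation supported near a point. -/
def spread (χ : (ι → ℝ) → ℝ) (c v : ι → ℝ) : ι → ℝ :=
  ∑ i ∈ Finset.range p, χ (g^[i] v) • g^[(p - 1) * i] c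

omit [Fintype ι] in
theorem iterate_map_zero (n : ℕ) : g^[n] (0 : ι → ℝ) = 0 := by
  induction n with
  | zero => rfl
  | succ n ih => rw [iterate_succ_apply', ih, map_zero]

omit [Fintype ι] in
theorem spread_zero (χ : (ι → ℝ) → ℝ) (v : ι → ℝ) : spread g p χ 0 v = 0 := by
  simp [spread]

theorem contDiff_spread {χ : (ι → ℝ) → ℝ} (hχ : ContDiff ℝ 2 χ) :
    ContDiff ℝ 2 fun q : (ι → ℝ) × (ι → ℝ) => spread g p χ q.1 q.2 := by
  have hit : ∀ n : ℕ, ContDiff ℝ 2 (g^[n] : (ι → ℝ) → (ι → ℝ)) := fun n => by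
    induction n with
    | zero => exact contDiff_id
    | succ n ih => rw [iterate_succ]; exact ih.comp g.contDiff
  exact ContDiff.sum fun i _ => (hχ.comp ((hit i).comp contDiff_snd)).smul
    ((hit _).comp contDiff_fst)

omit [Fintype ι] in
theorem spread_map (hper : ∀ x, g^[p] x = x) (χ : (ι → ℝ) → ℝ) (c v : ι → ℝ) :
    spread g p χ c (g v) = g (spread g p χ c v) := by
  rcases Nat.eq_zero_or_pos p with rfl | hp
  · simp [spread]
  let f : ℕ → (ι → ℝ) := fun i => χ (g^[i] v) • g^[(p - 1) * i + 1] c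
  have hR : g (spread g p χ c v) = ∑ i ∈ Finset.range p, f i := by
    simp only [spread, map_sum, map_smul, f, iterate_succ_apply']
  have hL : spread g p χ c (g v) = ∑ i ∈ Finset.range p, f (i + 1) := by
    refine Finset.sum_congr rfl fun i _ => ?_
    simp only [f, ← iterate_succ_apply]
    rw [show (p - 1) * (i + 1) + 1 = (p - 1) * i + p by rw [mul_add, mul_one]; omega,
      iterate_add_apply g ((p - 1) * i) p c, hper]
  have hp0 : f p = f 0 := by
    simp only [f, hper, mul_zero, zero_add]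
    congr 1
    rw [iterate_succ_apply', iterate_succ_apply', mul_comm, iterate_mul, iterate_fixed (hper c),
      iterate_zero_apply]
  have h1 := Finset.sum_range_succ' f p
  rw [Finset.sum_range_succ, hp0] at h1
  rw [hR, hL]
  exact (add_right_cancel h1).symm

end bump

/-- Equivariant perturbation. The fixed preimages stay, and all preimages become regular. -/
theorem exists_regular_equivariant (g : (ι → ℝ) ≃L[ℝ] (ι → ℝ)) {p : ℕ} (hp : p.Prime)
    (hper : ∀ x, g^[p] x = x) {F : (ι → ℝ) → (ι → ℝ)} (hF : ContDiff ℝ 2 F)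
    (heq : ∀ x, F (g x) = g (F x)) (y : ι → ℝ) (hy : g y = y) {C : Set (ι → ℝ)}
    (hC : IsCompact C) (hinv : ∀ x ∈ C, g x ∈ C) (Z₀ : Finset (ι → ℝ))
    (hZ₀ : ∀ z, z ∈ Z₀ ↔ z ∈ C ∧ F z = y ∧ g z = z)
    (hreg : ∀ z ∈ Z₀, (fderiv ℝ F z).det ≠ 0) {e : ℝ} (he : 0 < e) :
    ∃ G : (ι → ℝ) → (ι → ℝ), ContDiff ℝ 2 G ∧ (∀ x, G (g x) = g (G x)) ∧
      (∀ x ∈ C, ‖G x - F x‖ ≤ e) ∧ (∀ z, g z = z → G z = F z) ∧
      (∀ z ∈ Z₀, G =ᶠ[𝓝 z] F) ∧ ∀ z ∈ C, G z = y → (fderiv ℝ G z).det ≠ 0 := by
  classical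
  have hU : ∀ z ∈ Z₀, ∃ r > 0, InjOn F (closedBall z r) := fun z hz => by
    obtain ⟨U, hUo, hzU, -, hinj, -, -⟩ := regular_nhds hF (hreg z hz) univ_mem
    obtain ⟨r, hr, hrU⟩ := nhds_basis_closedBall.mem_iff.1 (hUo.mem_nhds hzU)
    exact ⟨r, hr, hinj.mono hrU⟩
  choose! r hr hrinj using hU
  set T : Set (ι → ℝ) := ⋃ z ∈ Z₀, closedBall z (r z) with hTdef
  have hTc : IsClosed T := isClosed_biUnion_finset fun _ _ => isClosed_closedBall
  set U₀ : Set (ι → ℝ) := ⋃ z ∈ Z₀, ball z (r z) with hU₀def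
  have hU₀o : IsOpen U₀ := isOpen_biUnion fun _ _ => isOpen_ball
  have hU₀T : U₀ ⊆ T := iUnion₂_mono fun z _ => ball_subset_closedBall
  have honly : ∀ x ∈ T, F x = y → x ∈ Z₀ := by
    intro x hx hxy
    obtain ⟨z, hz, hxz⟩ := mem_iUnion₂.1 hx
    rw [hrinj z hz hxz (mem_closedBall_self (hr z hz).le) (hxy.trans ((hZ₀ z).1 hz).2.1.symm)]
    exact hz
  set K₀ : Set (ι → ℝ) := (C ∩ F ⁻¹' {y}) \ U₀ with hK₀def
  have hK₀ : IsCompact K₀ := (hC.inter_right (isClosed_singleton.preimage hF.continuous)).diff hU₀o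
  have hiC : ∀ (n : ℕ) (x), x ∈ C → g^[n] x ∈ C := by
    intro n
    induction n with
    | zero => exact fun x hx => hx
    | succ n ih => exact fun x hx => by rw [iterate_succ_apply']; exact hinv _ (ih x hx)
  have hcont : ∀ n : ℕ, Continuous (g^[n] : (ι → ℝ) → (ι → ℝ)) := fun n => g.continuous.iterate n
  have hFit : ∀ (n : ℕ) x, F (g^[n] x) = g^[n] (F x) := by
    intro n
    induction n with
    | zero => exact fun _ => rfl
    | succ n ih => intro x; rw [iterate_succ_apply', iterate_succ_apply', heq, ih]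
  have hfree : ∀ x ∈ K₀, ∀ i < p, g^[i] x ∉ T ∧ (i ≠ 0 → g^[i] x ≠ x) := by
    intro x hx i hi
    have hnf : g x ≠ x := fun h => hx.2 (mem_biUnion ((hZ₀ x).2 ⟨hx.1.1, hx.1.2, h⟩)
      (mem_ball_self (hr x ((hZ₀ x).2 ⟨hx.1.1, hx.1.2, h⟩))))
    refine ⟨fun hT => ?_, fun hi0 h => hnf ?_⟩
    · have h1 := honly _ hT (by rw [hFit, hx.1.2, iterate_fixed hy])
      have h2 := ((hZ₀ _).1 h1).2.2
      have h3 := congrArg (g^[p - i]) h2
      rw [← iterate_succ_apply' g i x, ← iterate_add_apply, ← iterate_add_apply,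
        show p - i + (i + 1) = 1 + p by omega, show p - i + i = p by omega, iterate_add_apply,
        hper, iterate_one] at h3
      exact hnf h3
    · have h1 : IsPeriodicPt g i x := h
      have h2 := h1.gcd (show IsPeriodicPt g p x from hper x)
      rw [((hp.coprime_iff_not_dvd).2 (Nat.not_dvd_of_pos_of_lt (Nat.pos_of_ne_zero hi0) hi)).symm.gcd_eq_one]
        at h2
      simpa [IsPeriodicPt, IsFixedPt] using h2
  have hρ : ∀ x ∈ K₀, ∃ ρ > 0, ∀ v ∈ closedBall x (2 * ρ), ∀ i < p,
      g^[i] v ∉ T ∧ (i ≠ 0 → dist v x < dist (g^[i] v) x) := by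
    intro x hx
    have h1 : ∀ᶠ v in 𝓝 x, ∀ i ∈ Finset.range p,
        g^[i] v ∉ T ∧ (i ≠ 0 → dist v x < dist (g^[i] v) x) := by
      rw [Finset.eventually_all]
      intro i hi
      have hi' := Finset.mem_range.1 hi
      refine ((hcont i).continuousAt.eventually_mem
        (hTc.isOpen_compl.mem_nhds (hfree x hx i hi').1)).and ?_
      by_cases hi0 : i = 0
      · exact Eventually.of_forall fun v h => absurd hi0 h
      · refine ((continuous_id.dist continuous_const).continuousAt.eventually_lt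
          ((hcont i).dist continuous_const).continuousAt ?_).mono fun v hv _ => hv
        simpa using (hfree x hx i hi').2 hi0
    obtain ⟨R, hR, hball⟩ := nhds_basis_closedBall.eventually_iff.1 h1
    exact ⟨R / 2, by linarith, fun v hv i hi => hball
      (closedBall_subset_closedBall (by linarith) hv) i (Finset.mem_range.2 hi)⟩
  choose! ρ hρ0 hρ using hρ
  obtain ⟨t, htK, htcov⟩ := hK₀.elim_nhds_subcover (fun x => ball x (ρ x / 2))
    fun x hx => ball_mem_nhds x (by linarith [hρ0 x hx])
  let core : (ι → ℝ) → Set (ι → ℝ) := fun a => closedBall a (ρ a / 2)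
  have hcover : C ∩ F ⁻¹' {y} ⊆ U₀ ∪ ⋃ a ∈ t, core a := fun x hx => by
    by_cases hxU : x ∈ U₀
    · exact Or.inl hxU
    · obtain ⟨a, ha, hxa⟩ := mem_iUnion₂.1 (htcov ⟨hx, hxU⟩)
      exact Or.inr (mem_biUnion ha (ball_subset_closedBall hxa))
  -- the perturbations
  have key : ∀ s : Finset (ι → ℝ), (∀ a ∈ s, a ∈ K₀) → ∀ e > 0, ∃ G : (ι → ℝ) → (ι → ℝ),
      ContDiff ℝ 2 G ∧ (∀ x, G (g x) = g (G x)) ∧ (∀ x ∈ C, ‖G x - F x‖ ≤ e) ∧
      (∀ z, g z = z → G z = F z) ∧ (∀ z ∈ U₀, G z = F z) ∧
      ∀ a ∈ s, ∀ z ∈ C ∩ core a, G z = y → (fderiv ℝ G z).det ≠ 0 := by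
    intro s
    induction s using Finset.induction with
    | empty =>
      intro _ e he
      exact ⟨F, hF, heq, fun x _ => by simpa using he.le, fun _ _ => rfl, fun _ _ => rfl,
        by simp⟩
    | insert a s has ih =>
      intro hs e he
      obtain ⟨G, hG, hGeq, hGe, hGfix, hGU, hGreg⟩ :=
        ih (fun b hb => hs b (Finset.mem_insert_of_mem hb)) (e / 2) (by linarith)
      have ha := hs a (Finset.mem_insert_self a s)
      have hρa := hρ0 a ha
      let χ : ContDiffBump a := ⟨ρ a, 2 * ρ a, hρa, by linarith⟩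
      let W := fun q : (ι → ℝ) × (ι → ℝ) => spread g p χ q.1 q.2
      have hW : ContDiff ℝ 2 W := contDiff_spread g p χ.contDiff
      let H := fun q : (ι → ℝ) × (ι → ℝ) => G q.2 + W (y - q.1, q.2)
      have hH : ContDiff ℝ 2 H :=
        (hG.comp contDiff_snd).add (hW.comp ((contDiff_const.sub contDiff_fst).prodMk contDiff_snd))
      have hHq : ∀ q, ContDiff ℝ 2 fun v => H (q, v) := fun q =>
        hH.comp (contDiff_const.prodMk contDiff_id)
      have hH0 : ∀ v, H (y, v) = G v := fun v => by simp [H, W, spread_zero]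
      have hvan : ∀ (q v : ι → ℝ), (∀ i < p, g^[i] v ∉ ball a (2 * ρ a)) → H (q, v) = G v := by
        intro q v h
        have : ∀ i ∈ Finset.range p, χ (g^[i] v) = 0 := fun i hi => by
          by_contra hne
          exact h i (Finset.mem_range.1 hi) (χ.support_eq.le hne)
        simp only [H, W, spread]
        rw [Finset.sum_eq_zero fun i hi => by rw [this i hi, zero_smul], add_zero]
      have hnear : ∀ (q v : ι → ℝ), v ∈ ball a (ρ a) → H (q, v) = G v + (y - q) := by
        intro q v hv
        simp only [H, W, spread]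
        rw [Finset.sum_eq_single 0]
        · simp [χ.one_of_mem_closedBall (show v ∈ closedBall a χ.rIn from ball_subset_closedBall hv)]
        · intro i hi hi0
          rw [(fun h => by_contra fun hne => h (χ.support_eq.le hne) :
            g^[i] v ∉ ball a (2 * ρ a) → χ (g^[i] v) = 0) ?_, zero_smul]
          intro hmem
          have hv2 : v ∈ closedBall a (2 * ρ a) :=
            closedBall_subset_closedBall (by linarith) (ball_subset_closedBall hv)
          have hi' := Finset.mem_range.1 hi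
          have h1 := (hρ a ha v hv2 i hi').2 hi0
          have h2 := (hρ a ha _ (ball_subset_closedBall hmem) (p - i) (by omega)).2 (by omega)
          rw [← iterate_add_apply, show p - i + i = p by omega, hper] at h2
          linarith
        · intro h; exact absurd (Finset.mem_range.2 hp.pos) h
      -- conditions on the parameter near `y`
      have hsmall : ∀ᶠ q in 𝓝 y, ∀ v ∈ C, ‖H (q, v) - G v‖ < e / 2 := by
        refine hC.eventually_forall_of_forall_eventually fun v _ => ?_
        refine ((hH.continuous.sub (hG.continuous.comp continuous_snd)).norm.continuousAt).eventually_lt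
          continuousAt_const ?_
        simp [hH0]; linarith
      have hold : ∀ᶠ q in 𝓝 y, ∀ b ∈ s, ∀ v ∈ C ∩ core b,
          H (q, v) = y → (fderiv ℝ (fun x => H (q, x)) v).det ≠ 0 := by
        rw [Finset.eventually_all]
        intro b hb
        refine (hC.inter_right isClosed_closedBall).eventually_forall_of_forall_eventually
          fun v hv => ?_
        have hd : Continuous fun z : (ι → ℝ) × (ι → ℝ) =>
            (fderiv ℝ (fun x => H (z.1, x)) z.2).det := by
          have hfd : ∀ z : (ι → ℝ) × (ι → ℝ), fderiv ℝ (fun x => H (z.1, x)) z.2 =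
              (fderiv ℝ H z).comp (ContinuousLinearMap.inr ℝ (ι → ℝ) (ι → ℝ)) := fun z =>
            (((hH.differentiable two_ne_zero _).hasFDerivAt).comp z.2
              ((hasFDerivAt_const z.1 z.2).prodMk (hasFDerivAt_id z.2))).fderiv
          simp only [hfd]
          exact ContinuousLinearMap.continuous_det.comp
            ((hH.continuous_fderiv two_ne_zero).clm_comp continuous_const)
        have ho : IsOpen {z : (ι → ℝ) × (ι → ℝ) |
            H z ≠ y ∨ (fderiv ℝ (fun x => H (z.1, x)) z.2).det ≠ 0} :=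
          (isOpen_ne_fun hH.continuous continuous_const).union (isOpen_ne_fun hd continuous_const)
        refine (Filter.eventually_of_mem (ho.mem_nhds (?_ : (y, v) ∈ _)) fun z hz hzy => ?_)
        · simp only [Set.mem_ofPred_eq, hH0]
          by_cases hvy : G v = y
          · exact Or.inr (hGreg b hb v hv hvy)
          · exact Or.inl hvy
        · exact hz.resolve_left (not_not.2 hzy)
      -- Sard
      set S : Set (ι → ℝ) := G '' {v | (fderiv ℝ G v).det = 0} with hSdef
      have hS : volume S = 0 := addHaar_image_eq_zero_of_det_fderivWithin_eq_zero volume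
        (f' := fderiv ℝ G)
        (fun v _ => (hG.differentiable two_ne_zero v).hasFDerivAt.hasFDerivWithinAt)
        (fun v hv => hv)
      obtain ⟨O, hOsub, hOo, hyO⟩ := _root_.mem_nhds_iff.1 (hsmall.and hold)
      obtain ⟨q, hqO, hqS⟩ : ∃ q ∈ O, q ∉ S := by
        by_contra h
        push Not at h
        exact (hOo.measure_pos volume ⟨y, hyO⟩).ne' (measure_mono_null h hS)
      obtain ⟨hq1, hq2⟩ := hOsub hqO
      refine ⟨fun v => H (q, v), hHq q, fun x => ?_, fun x hx => ?_, fun z hz => ?_,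
        fun z hz => ?_, fun b hb z hz hzy => ?_⟩
      · simp only [H, W, hGeq, spread_map g p hper, map_add]
      · calc ‖H (q, x) - F x‖ ≤ ‖H (q, x) - G x‖ + ‖G x - F x‖ := norm_sub_le_norm_sub_add_norm_sub _ _ _
          _ ≤ e / 2 + e / 2 := add_le_add (hq1 x hx).le (hGe x hx)
          _ = e := by ring
      · show H (q, z) = F z
        rw [hvan q z fun i _ hmem => ?_, hGfix z hz]
        rw [iterate_fixed hz] at hmem
        have h1 := (hρ a ha z (ball_subset_closedBall hmem) 1 hp.one_lt).2 one_ne_zero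
        simp [hz] at h1
      · show H (q, z) = F z
        rw [hvan q z fun i hi hmem => ?_, hGU z hz]
        have h0 := hρ a ha _ (ball_subset_closedBall hmem)
        rcases Nat.eq_zero_or_pos i with rfl | hi0
        · exact (h0 0 hp.pos).1 (hU₀T hz)
        · have h1 := (h0 (p - i) (by omega)).1
          rw [← iterate_add_apply, show p - i + i = p by omega, hper] at h1
          exact h1 (hU₀T hz)
      · rcases Finset.mem_insert.1 hb with rfl | hb'
        · have hzb : z ∈ ball b (ρ b) := closedBall_subset_ball (by linarith) hz.2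
          have heqn : (fun v => H (q, v)) =ᶠ[𝓝 z] fun v => G v + (y - q) :=
            Filter.eventually_of_mem (isOpen_ball.mem_nhds hzb) fun v hv => hnear q v hv
          rw [heqn.fderiv_eq, fderiv_add_const]
          intro hdet
          have hGz : G z = q := by
            have h1 : G z + (y - q) = y := (hnear q z hzb).symm.trans hzy
            calc G z = G z + (y - q) - (y - q) := by abel
              _ = q := by rw [h1]; abel
          exact hqS ⟨z, hdet, hGz⟩
        · exact hq2 b hb' z hz hzy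
  -- no preimages away from the cores
  set C' : Set (ι → ℝ) := C \ (U₀ ∪ ⋃ a ∈ t, ball a (ρ a / 2)) with hC'def
  have hC' : IsCompact C' := hC.diff (hU₀o.union (isOpen_biUnion fun _ _ => isOpen_ball))
  obtain ⟨δ, hδ, hδC⟩ : ∃ δ > 0, ∀ x ∈ C', δ < ‖F x - y‖ := by
    obtain ⟨d, hd, hdC⟩ := hC'.exists_forall_le' (hF.continuous.sub continuous_const).norm.continuousOn
      (a := 0) fun x hx => by
        refine norm_pos_iff.2 (sub_ne_zero.2 fun hxy => hx.2 ?_)
        by_cases hxU : x ∈ U₀
        · exact Or.inl hxU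
        · exact Or.inr (htcov ⟨⟨hx.1, hxy⟩, hxU⟩)
    refine ⟨d / 2, half_pos hd, fun x hx => ?_⟩
    have h1 : d ≤ ‖F x - y‖ := hdC x hx
    linarith
  obtain ⟨G, hG, hGeq, hGe, hGfix, hGU, hGreg⟩ := key t htK (min e δ) (lt_min he hδ)
  have hnhds : ∀ z ∈ Z₀, G =ᶠ[𝓝 z] F := fun z hz =>
    Filter.eventually_of_mem (hU₀o.mem_nhds (mem_biUnion hz (mem_ball_self (hr z hz)))) hGU
  refine ⟨G, hG, hGeq, fun x hx => (hGe x hx).trans (min_le_left _ _), hGfix, hnhds,
    fun z hz hzy => ?_⟩
  by_cases hzU : z ∈ U₀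
  · have hzF : F z = y := (hGU z hzU).symm.trans hzy
    have hz0 := honly z (hU₀T hzU) hzF
    rw [(hnhds z hz0).fderiv_eq]
    exact hreg z hz0
  by_cases hzc : z ∈ ⋃ a ∈ t, ball a (ρ a / 2)
  · obtain ⟨a, ha, hza⟩ := mem_iUnion₂.1 hzc
    exact hGreg a ha z ⟨hz, ball_subset_closedBall hza⟩ hzy
  · have h1 := hδC z ⟨hz, fun h => h.elim hzU hzc⟩
    have h2 := (hGe z hz).trans (min_le_right _ _)
    rw [hzy, norm_sub_rev] at h2
    linarith

end Vale.Agent.P174.GR
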