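import Vale.Agent.P174.GR.Perturb

/-!
P174: word maps on a finite-dimensional C*-algebra, extended off the unitaries so that the degree
does not depend on the coefficients.
-/

noncomputable section

namespace Vale.Agent.P174.GR

open MeasureTheory Filter Topology Set Function Metric

/-- A word in coefficients `P` and `n` unknowns. -/
abbrev Word.{v} (P : Type v) (n : ℕ) := List ((P ⊕ Fin n) × Bool)

universe u

variable {P : Type u} {n : ℕ} {A : Type} [CStarAlgebra A]

/-- The value of a letter, with the adjoint in place of the inverse. -/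
def letter (g : P → A) (X : Fin n → A) (a : (P ⊕ Fin n) × Bool) : A :=
  if a.2 then Sum.elim g X a.1 else star (Sum.elim g X a.1)

/-- The value of a word. -/
def val (g : P → A) (X : Fin n → A) (L : Word P n) : A := (L.map (letter g X)).prod

theorem val_nil (g : P → A) (X : Fin n → A) : val g X [] = 1 := rfl

theorem val_cons (g : P → A) (X : Fin n → A) (a) (L : Word P n) :
    val g X (a :: L) = letter g X a * val g X L := by simp [val]

/-- The defect from unitarity. -/
def dfct (x : A) : A := star x * x - 1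

/-- The extended word map. -/
def psi (K : ℝ) (L : Fin n → Word P n) (g : P → A) (X : Fin n → A) : Fin n → A := fun i =>
  val g X (L i) * (1 + K • dfct (X i))

omit [CStarAlgebra A] in
theorem norm_one_le' [CStarAlgebra A] : ‖(1 : A)‖ ≤ 1 := by
  have h := CStarRing.norm_star_mul_self (x := (1 : A))
  rw [star_one, one_mul] at h
  nlinarith [norm_nonneg (1 : A)]

theorem norm_le_two {x : A} (h : ‖dfct x‖ ≤ 1) : ‖x‖ ≤ 2 := by
  have h1 := CStarRing.norm_star_mul_self (x := x)
  have h2 : ‖star x * x‖ ≤ 2 := by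
    calc ‖star x * x‖ = ‖dfct x + 1‖ := by simp [dfct]
      _ ≤ ‖dfct x‖ + ‖(1 : A)‖ := norm_add_le _ _
      _ ≤ 2 := by linarith [norm_one_le' (A := A)]
  nlinarith [norm_nonneg x]

variable [FiniteDimensional ℂ A]

theorem dfct_star_le {x : A} {m : ℝ} (h : ‖dfct x‖ ≤ m) (hm : m ≤ 1 / 2) :
    ‖dfct (star x)‖ ≤ 4 * m := by
  have hu : IsUnit (star x * x) := by
    have h1 := isUnit_one_sub_of_norm_lt_one (x := -dfct x) (by rw [norm_neg]; linarith)
    simpa [dfct] using h1
  obtain ⟨u, hu'⟩ := hu
  set y : A := (↑u⁻¹ : A) * star x with hy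
  have hyx : y * x = 1 := by rw [hy, mul_assoc, ← hu', Units.inv_mul]
  have hxy : x * y = 1 := by
    have hinj : Function.Injective (LinearMap.mulLeft ℂ x) := fun a b hab => by
      have := congrArg (y * ·) hab
      simpa [← mul_assoc, hyx] using this
    obtain ⟨z, hz⟩ := (LinearMap.injective_iff_surjective.1 hinj) 1
    simp only [LinearMap.mulLeft_apply] at hz
    rw [show y = z by rw [← mul_one y, ← hz, ← mul_assoc, hyx, one_mul], hz]
  set q : A := y * star y with hq
  have hq1 : star x * x * q = 1 := by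
    rw [hq, ← mul_assoc, mul_assoc (star x) x y, hxy, mul_one, ← star_mul, hyx, star_one]
  have hq2 : q = 1 - dfct x * q := by simp [dfct, sub_mul, hq1]
  have hqn : ‖q‖ ≤ 2 := by
    have h3 : ‖q‖ ≤ 1 + m * ‖q‖ := by
      calc ‖q‖ = ‖1 - dfct x * q‖ := by rw [← hq2]
        _ ≤ ‖(1 : A)‖ + ‖dfct x * q‖ := norm_sub_le _ _
        _ ≤ 1 + m * ‖q‖ := add_le_add norm_one_le'
          ((norm_mul_le _ _).trans (mul_le_mul_of_nonneg_right h (norm_nonneg _)))
    nlinarith [norm_nonneg q]
  have hyn : ‖y‖ ≤ 2 := by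
    have h4 := CStarRing.norm_self_mul_star (x := y)
    rw [← hq] at h4
    nlinarith [norm_nonneg y]
  have h5 : dfct (star x) = x * dfct x * y := by
    simp [dfct, mul_sub, sub_mul, mul_assoc, hxy]
  rw [h5]
  calc ‖x * dfct x * y‖ ≤ ‖x‖ * ‖dfct x‖ * ‖y‖ :=
        (norm_mul_le _ _).trans (mul_le_mul_of_nonneg_right (norm_mul_le _ _) (norm_nonneg _))
    _ ≤ 2 * m * 2 := by
        have h0 : 0 ≤ m := le_trans (norm_nonneg _) h
        exact mul_le_mul (mul_le_mul (norm_le_two (h.trans (by linarith))) h (norm_nonneg _) (by norm_num))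
          hyn (norm_nonneg _) (by positivity)
    _ = 4 * m := by ring

theorem mem_unitary_of_dfct {x : A} (h : dfct x = 0) : x ∈ unitary A := by
  have h1 : dfct (star x) = 0 := by
    refine norm_le_zero_iff.1 ((dfct_star_le (m := 0) (by simp [h]) (by norm_num)).trans_eq (by ring))
  exact Unitary.mem_iff.2 ⟨sub_eq_zero.1 h, by simpa [dfct, sub_eq_zero] using h1⟩

omit [FiniteDimensional ℂ A] in
theorem dfct_of_mem {x : A} (h : x ∈ unitary A) : dfct x = 0 := by
  simp [dfct, (Unitary.mem_iff.1 h).1]

theorem val_bound {g : P → A} (hg : ∀ c, g c ∈ unitary A) {X : Fin n → A} {m : ℝ}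
    (hX : ∀ j, ‖dfct (X j)‖ ≤ m) (hm0 : 0 ≤ m) (hm : m ≤ 1 / 4) (L : Word P n) :
    ‖val g X L‖ ≤ 2 ^ L.length ∧ ‖dfct (val g X L)‖ ≤ 2 * 4 ^ L.length * m := by
  induction L with
  | nil =>
    refine ⟨by simpa [val_nil] using norm_one_le' (A := A), ?_⟩
    simp [val_nil, dfct]; linarith
  | cons a L ih =>
    have hl : ‖dfct (letter g X a)‖ ≤ 4 * m := by
      obtain ⟨c | j, b⟩ := a
      · cases b <;> simp [letter, dfct_of_mem (hg c), dfct_of_mem (Unitary.star_mem (hg c))] <;>
          linarith
      · cases b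
        · simpa [letter] using dfct_star_le (hX j) (by linarith)
        · simpa [letter] using (hX j).trans (by linarith)
    have hln : ‖letter g X a‖ ≤ 2 := norm_le_two (hl.trans (by linarith))
    rw [val_cons, List.length_cons]
    set f := letter g X a
    set r := val g X L
    refine ⟨(norm_mul_le _ _).trans ?_, ?_⟩
    · calc ‖f‖ * ‖r‖ ≤ 2 * 2 ^ L.length := mul_le_mul hln ih.1 (norm_nonneg _) (by norm_num)
        _ = 2 ^ (L.length + 1) := by ring
    · have h1 : dfct (f * r) = star r * dfct f * r + dfct r := by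
        simp [dfct, mul_sub, sub_mul, mul_assoc]
      rw [h1]
      calc ‖star r * dfct f * r + dfct r‖ ≤ ‖r‖ * ‖dfct f‖ * ‖r‖ + ‖dfct r‖ := by
            refine (norm_add_le _ _).trans (add_le_add ?_ le_rfl)
            refine (norm_mul_le _ _).trans (mul_le_mul_of_nonneg_right ?_ (norm_nonneg _))
            exact (norm_mul_le _ _).trans_eq (by rw [norm_star])
        _ ≤ 2 ^ L.length * (4 * m) * 2 ^ L.length + 2 * 4 ^ L.length * m := by
            refine add_le_add (mul_le_mul (mul_le_mul ih.1 hl (norm_nonneg _) (by positivity)) ih.1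
              (norm_nonneg _) (by positivity)) ih.2
        _ ≤ 2 * 4 ^ (L.length + 1) * m := by
            rw [show (2 : ℝ) ^ L.length * (4 * m) * 2 ^ L.length = 4 * 4 ^ L.length * m by
              rw [show (4 : ℝ) ^ L.length = 2 ^ L.length * 2 ^ L.length by rw [← mul_pow]; norm_num]
              ring]
            have : 0 ≤ (4 : ℝ) ^ L.length * m := by positivity
            rw [pow_succ]; linarith

/-- The gain dominating all the word defects. -/
def gain (L : Fin n → Word P n) : ℝ := 8 * 4 ^ (∑ i, (L i).length)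

theorem one_le_gain (L : Fin n → Word P n) : 1 ≤ gain L := by
  have : (1 : ℝ) ≤ 4 ^ (∑ i, (L i).length) := one_le_pow₀ (by norm_num)
  unfold gain; linarith

/-- The region where the extended map is used. -/
def region (A : Type) [CStarAlgebra A] (L : Fin n → Word P n) : Set (Fin n → A) :=
  {X | ∀ i, ‖dfct (X i)‖ ≤ 1 / (4 * gain L)}

/-- Where the extended map is near one, the defect is small. -/
theorem small_defect {L : Fin n → Word P n} {g : P → A} (hg : ∀ c, g c ∈ unitary A)
    {X : Fin n → A} (hX : X ∈ region A L) {η : ℝ} (hη0 : 0 ≤ η) (hη1 : η ≤ 1)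
    (h : ∀ i, ‖psi (gain L) L g X i - 1‖ ≤ η) (i : Fin n) : gain L * ‖dfct (X i)‖ ≤ 3 * η := by
  set K := gain L with hK
  have hK1 : 1 ≤ K := one_le_gain L
  obtain ⟨i₀, -, hmax⟩ := Finset.exists_max_image Finset.univ (fun j => ‖dfct (X j)‖) ⟨i, Finset.mem_univ i⟩
  set m := ‖dfct (X i₀)‖ with hm
  refine (mul_le_mul_of_nonneg_left (hmax i (Finset.mem_univ i)) (by linarith)).trans ?_
  show K * m ≤ 3 * η
  have hKm : K * m ≤ 1 / 4 := by
    calc K * m ≤ K * (1 / (4 * K)) := mul_le_mul_of_nonneg_left (hX i₀) (by linarith)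
      _ = 1 / 4 := by field_simp
  have hm0 : 0 ≤ m := norm_nonneg _
  have hm4 : m ≤ 1 / 4 := le_trans (le_mul_of_one_le_left hm0 hK1) hKm
  set E := dfct (X i₀) with hE
  set w := val g X (L i₀) with hw
  set M : A := 1 + K • E with hM
  have hEs : star E = E := by simp [hE, dfct]
  have hMs : star M = M := by simp [hM, hEs, star_smul]
  have hD : ‖dfct w‖ ≤ K / 4 * m := by
    refine (val_bound hg (fun j => hmax j (Finset.mem_univ j)) hm0 hm4 (L i₀)).2.trans
      (mul_le_mul_of_nonneg_right ?_ hm0)
    have h4 : (4 : ℝ) ^ (L i₀).length ≤ 4 ^ (∑ j, (L j).length) :=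
      pow_le_pow_right₀ (by norm_num) (Finset.single_le_sum (f := fun j => (L j).length) (fun j _ => Nat.zero_le _) (Finset.mem_univ i₀))
    simp only [hK, gain]; linarith
  have hP : ‖dfct (w * M)‖ ≤ 3 * η := by
    have h1 : ‖w * M - 1‖ ≤ η := h i₀
    have h2 : dfct (w * M) = star (w * M - 1) * (w * M - 1) + star (w * M - 1) + (w * M - 1) := by
      rw [dfct, star_sub, star_one]; noncomm_ring
    rw [h2]
    calc _ ≤ ‖star (w * M - 1) * (w * M - 1)‖ + ‖star (w * M - 1)‖ + ‖w * M - 1‖ :=
          norm_add₃_le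
      _ ≤ η * η + η + η := by
          refine add_le_add (add_le_add ((norm_mul_le _ _).trans ?_) (by rwa [norm_star])) h1
          rw [norm_star]; exact mul_le_mul h1 h1 (norm_nonneg _) hη0
      _ ≤ 3 * η := by nlinarith
  have hMn : ‖M‖ ≤ 5 / 4 := by
    calc ‖M‖ ≤ ‖(1 : A)‖ + ‖K • E‖ := norm_add_le _ _
      _ ≤ 1 + 1 / 4 := add_le_add norm_one_le' (by
          rw [norm_smul, Real.norm_eq_abs, abs_of_pos (by linarith)]; exact hKm)
      _ = 5 / 4 := by norm_num
  have hid : (2 * K) • E = dfct (w * M) - M * dfct w * M - (K * K) • (E * E) := by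
    have h3 : dfct (w * M) = M * dfct w * M + (M * M - 1) := by
      simp [dfct, hMs, mul_sub, sub_mul, mul_assoc]
    rw [h3, hM]
    simp only [mul_add, add_mul, mul_one, one_mul, smul_mul_assoc, mul_smul_comm]
    module
  have h4 : 2 * K * m ≤ 3 * η + 5 / 4 * (K / 4 * m) * (5 / 4) + K * K * (m * m) := by
    calc 2 * K * m = ‖(2 * K) • E‖ := by
          rw [norm_smul, Real.norm_eq_abs, abs_of_pos (by linarith)]
      _ = ‖dfct (w * M) - M * dfct w * M - (K * K) • (E * E)‖ := by rw [hid]
      _ ≤ ‖dfct (w * M)‖ + ‖M * dfct w * M‖ + ‖(K * K) • (E * E)‖ :=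
          (norm_sub_le _ _).trans (add_le_add (norm_sub_le _ _) le_rfl)
      _ ≤ _ := by
          refine add_le_add (add_le_add hP ?_) ?_
          · refine (norm_mul_le _ _).trans (mul_le_mul ?_ hMn (norm_nonneg _) (by positivity))
            exact (norm_mul_le _ _).trans (mul_le_mul hMn hD (norm_nonneg _) (by norm_num))
          · rw [norm_smul, Real.norm_eq_abs, abs_of_nonneg (by positivity)]
            exact mul_le_mul_of_nonneg_left (norm_mul_le _ _) (by positivity)
  have h5 : K * K * (m * m) ≤ 1 / 4 * (K * m) := by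
    rw [show K * K * (m * m) = (K * m) * (K * m) by ring]
    exact mul_le_mul_of_nonneg_right hKm (by positivity)
  nlinarith [mul_nonneg (le_trans zero_le_one hK1) hm0]

theorem half_region {L : Fin n → Word P n} {g : P → A} (hg : ∀ c, g c ∈ unitary A)
    {X : Fin n → A} (hX : X ∈ region A L) (h : ∀ i, ‖psi (gain L) L g X i - 1‖ ≤ 1 / 24)
    (i : Fin n) : ‖dfct (X i)‖ ≤ 1 / (8 * gain L) := by
  have h1 := small_defect hg hX (by norm_num) (by norm_num) h i
  have hK := one_le_gain L
  rw [le_div_iff₀ (by linarith)]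
  linarith

theorem root_of_psi {L : Fin n → Word P n} {g : P → A} (hg : ∀ c, g c ∈ unitary A)
    {X : Fin n → A} (hX : X ∈ region A L) (h : psi (gain L) L g X = 1) :
    (∀ i, X i ∈ unitary A) ∧ ∀ i, val g X (L i) = 1 := by
  have h0 : ∀ i, dfct (X i) = 0 := fun i => by
    have h1 := small_defect hg hX le_rfl zero_le_one (fun j => by simp [h]) i
    refine norm_le_zero_iff.1 ?_
    nlinarith [one_le_gain L, norm_nonneg (dfct (X i))]
  refine ⟨fun i => mem_unitary_of_dfct (h0 i), fun i => ?_⟩
  simpa [psi, h0 i] using congrFun h i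

theorem isCompact_region (L : Fin n → Word P n) : IsCompact (region A L) := by
  have : ProperSpace A := FiniteDimensional.proper_real A
  refine (isCompact_closedBall (0 : Fin n → A) 2).of_isClosed_subset ?_ fun X hX => ?_
  · simp only [region, Set.ofPred_forall]
    exact isClosed_iInter fun i => isClosed_le
      (((continuous_apply i).star.mul (continuous_apply i)).sub continuous_const).norm continuous_const
  · rw [mem_closedBall_zero_iff, pi_norm_le_iff_of_nonneg (by norm_num)]
    refine fun i => norm_le_two ((hX i).trans ?_)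
    rw [div_le_one (by linarith [one_le_gain L])]; linarith [one_le_gain L]

omit [FiniteDimensional ℂ A] in
theorem continuous_psi (K : ℝ) (L : Fin n → Word P n) :
    Continuous fun q : (P → A) × (Fin n → A) => psi K L q.1 q.2 := by
  refine continuous_pi fun i => ?_
  refine Continuous.mul ?_ (continuous_const.add
    (((((continuous_apply i).comp continuous_snd).star.mul ((continuous_apply i).comp continuous_snd)).sub
      continuous_const).const_smul K))
  simp only [val]
  refine continuous_list_prod _ fun a _ => ?_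
  obtain ⟨c | j, b⟩ := a <;> cases b <;> simp only [letter, Sum.elim_inl, Sum.elim_inr, if_true,
    if_false, Bool.false_eq_true] <;> fun_prop

omit [FiniteDimensional ℂ A] in
theorem contDiff_val (g : P → A) (L : Word P n) : ContDiff ℝ 2 fun X : Fin n → A => val g X L := by
  induction L with
  | nil => exact contDiff_const
  | cons a L ih =>
    simp only [val_cons]
    refine ContDiff.mul ?_ ih
    obtain ⟨c | j, b⟩ := a <;> cases b <;>
      simp only [letter, Sum.elim_inl, Sum.elim_inr, if_true, if_false, Bool.false_eq_true]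
    · exact contDiff_const
    · exact contDiff_const
    · exact (starL' ℝ : A ≃L[ℝ] A).contDiff.comp (contDiff_apply ℝ A j)
    · exact contDiff_apply ℝ A j

omit [FiniteDimensional ℂ A] in
theorem contDiff_psi (K : ℝ) (L : Fin n → Word P n) (g : P → A) :
    ContDiff ℝ 2 (psi K L g) := by
  refine contDiff_pi.2 fun i => (contDiff_val g (L i)).mul (contDiff_const.add ?_)
  exact ((((starL' ℝ : A ≃L[ℝ] A).contDiff.comp (contDiff_apply ℝ A i)).mul
    (contDiff_apply ℝ A i)).sub contDiff_const).const_smul K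

/-! ### The degree -/

variable {ι : Type} [Fintype ι] [DecidableEq ι] (L : Fin n → Word P n)
  (e : (Fin n → A) ≃L[ℝ] (ι → ℝ))

/-- The open domain of the degree. -/
def dom : Set (ι → ℝ) := {x | ∀ i, ‖dfct (e.symm x i)‖ < 1 / (4 * gain L)}

/-- The compact core. -/
def ker₂ : Set (ι → ℝ) := {x | ∀ i, ‖dfct (e.symm x i)‖ ≤ 1 / (8 * gain L)}

/-- The word map in coordinates. -/
def coordMap (g : P → A) (x : ι → ℝ) : ι → ℝ := e (psi (gain L) L g (e.symm x))

omit [FiniteDimensional ℂ A] [DecidableEq ι] in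
theorem contDiff_coordMap (g : P → A) : ContDiff ℝ 2 (coordMap L e g) :=
  e.contDiff.comp ((contDiff_psi _ L g).comp e.symm.contDiff)

omit [FiniteDimensional ℂ A] [Fintype ι] [DecidableEq ι] in
theorem isOpen_dom : IsOpen (dom L e) := by
  simp only [dom, Set.ofPred_forall]
  refine isOpen_iInter_of_finite fun i => isOpen_lt ?_ continuous_const
  exact ((((continuous_apply i).comp e.symm.continuous).star.mul
    ((continuous_apply i).comp e.symm.continuous)).sub continuous_const).norm

omit [FiniteDimensional ℂ A] [Fintype ι] [DecidableEq ι] in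
theorem ker₂_subset_dom : ker₂ L e ⊆ dom L e := fun x hx i => (hx i).trans_lt (by
  have := one_le_gain L
  gcongr
  linarith)

omit [FiniteDimensional ℂ A] [Fintype ι] [DecidableEq ι] in
theorem dom_subset : dom L e ⊆ e.symm ⁻¹' region A L := fun _ hx i => (hx i).le

omit [Fintype ι] [DecidableEq ι] in
theorem isCompact_ker₂ : IsCompact (ker₂ L e) := by
  have h : IsCompact (e.symm ⁻¹' region A L) :=
    e.symm.toHomeomorph.isCompact_preimage.2 (isCompact_region L)
  refine h.of_isClosed_subset ?_ fun x hx => dom_subset L e (ker₂_subset_dom L e hx)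
  simp only [ker₂, Set.ofPred_forall]
  exact isClosed_iInter fun i => isClosed_le ((((continuous_apply i).comp e.symm.continuous).star.mul
    ((continuous_apply i).comp e.symm.continuous)).sub continuous_const).norm continuous_const

omit [Fintype ι] [DecidableEq ι] in
theorem mem_ker₂ {g : P → A} (hg : ∀ c, g c ∈ unitary A) {x : ι → ℝ} (hx : x ∈ dom L e)
    {u : ι → ℝ} (h : ‖e.symm u - psi (gain L) L g (e.symm x)‖ ≤ 1 / 48) (hu : ‖e.symm u - 1‖ ≤ 1 / 48) :
    x ∈ ker₂ L e := by
  refine half_region hg (dom_subset L e hx) fun i => ?_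
  have h1 : ‖psi (gain L) L g (e.symm x) - 1‖ ≤ 1 / 24 := by
    calc ‖psi (gain L) L g (e.symm x) - 1‖
        ≤ ‖psi (gain L) L g (e.symm x) - e.symm u‖ + ‖e.symm u - 1‖ := norm_sub_le_norm_sub_add_norm_sub _ _ _
      _ ≤ 1 / 48 + 1 / 48 := add_le_add (by rwa [norm_sub_rev]) hu
      _ = 1 / 24 := by norm_num
  exact (norm_le_pi_norm (psi (gain L) L g (e.symm x) - 1) i).trans h1

/-- A map uniformly close to the word map has the same degree. -/
theorem deg_perturb {g : P → A} (hg : ∀ c, g c ∈ unitary A) {G : (ι → ℝ) → (ι → ℝ)}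
    (hG : ContDiff ℝ 2 G)
    (hclose : ∀ x ∈ dom L e, ‖e.symm (G x) - psi (gain L) L g (e.symm x)‖ ≤ 1 / 48)
    {φ : (ι → ℝ) → ℝ} (hφ : ContDiff ℝ 1 φ) (hφs : ∀ u, φ u ≠ 0 → ‖e.symm u - 1‖ ≤ 1 / 48) :
    deg (dom L e) φ G = deg (dom L e) φ (coordMap L e g) := by
  have h := deg_add_eq (isOpen_dom L e) (isCompact_ker₂ L e) (ker₂_subset_dom L e)
    (F := coordMap L e g) (v := fun x => G x - coordMap L e g x) (contDiff_coordMap L e g)
    (hG.sub (contDiff_coordMap L e g)) hφ fun s hs x hx hne => by
      refine mem_ker₂ L e hg hx ?_ (hφs _ hne)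
      simp only [map_add, map_smul, map_sub, coordMap, ContinuousLinearEquiv.symm_apply_apply,
        add_sub_cancel_left, norm_smul, Real.norm_eq_abs, abs_of_nonneg hs.1]
      exact (mul_le_of_le_one_left (norm_nonneg _) hs.2).trans (hclose x hx)
  simpa using h

/-- If the degree at trivial coefficients is nonzero, every system has a unitary root. -/
theorem exists_root [PreconnectedSpace (unitary A)]
    (h : ∀ r > 0, ∃ φ : (ι → ℝ) → ℝ, ContDiff ℝ 1 φ ∧ (∀ u, φ u ≠ 0 → ‖e.symm u - 1‖ < r) ∧
      deg (dom L e) φ (coordMap L e fun _ => 1) ≠ 0)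
    {g : P → A} (hg : ∀ c, g c ∈ unitary A) :
    ∃ X : Fin n → A, (∀ i, X i ∈ unitary A) ∧ ∀ i, val g X (L i) = 1 := by
  by_contra hno
  have hne : ∀ X ∈ region A L, 0 < ‖psi (gain L) L g X - 1‖ := fun X hX =>
    norm_pos_iff.2 (sub_ne_zero.2 fun hp => hno ⟨X, root_of_psi hg hX hp⟩)
  obtain ⟨d, hd, hdX⟩ := (isCompact_region L).exists_forall_le' (a := 0)
    (((continuous_psi (gain L) L).comp (Continuous.prodMk_right g)).sub continuous_const).norm.continuousOn hne
  obtain ⟨φ, hφ, hφs, hdeg⟩ := h (min d (1 / 48)) (lt_min hd (by norm_num))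
  have hφs' : ∀ u, φ u ≠ 0 → ‖e.symm u - 1‖ ≤ 1 / 48 := fun u hu =>
    (hφs u hu).le.trans (min_le_right _ _)
  let D : (P → unitary A) → ℝ := fun c => deg (dom L e) φ (coordMap L e fun p => (c p : A))
  have hD : IsLocallyConstant D := by
    refine (IsLocallyConstant.iff_eventually_eq D).2 fun c => ?_
    have hev : ∀ᶠ c' in 𝓝 c, ∀ X ∈ region A L,
        ‖psi (gain L) L (fun p => (c' p : A)) X - psi (gain L) L (fun p => (c p : A)) X‖ < 1 / 48 := by
      refine (isCompact_region L).eventually_forall_of_forall_eventually fun X _ => ?_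
      have hc1 : Continuous fun z : (P → unitary A) × (Fin n → A) =>
          psi (gain L) L (fun p => (z.1 p : A)) z.2 :=
        (continuous_psi (gain L) L).comp ((continuous_pi fun p =>
          continuous_subtype_val.comp ((continuous_apply p).comp continuous_fst)).prodMk continuous_snd)
      have hc2 : Continuous fun z : (P → unitary A) × (Fin n → A) =>
          psi (gain L) L (fun p => (c p : A)) z.2 :=
        (continuous_psi (gain L) L).comp (continuous_const.prodMk continuous_snd)
      exact (hc1.sub hc2).norm.continuousAt.eventually_lt continuousAt_const (by simp)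
    filter_upwards [hev] with c' hc'
    refine deg_perturb L e (fun p => (c p).2) (contDiff_coordMap L e _) (fun x hx => ?_) hφ hφs'
    rw [coordMap, ContinuousLinearEquiv.symm_apply_apply]
    exact (hc' _ (dom_subset L e hx)).le
  have h1 : D (fun p => ⟨g p, hg p⟩) = D (fun _ => 1) := hD.apply_eq_of_preconnectedSpace _ _
  refine hdeg (h1.symm.trans ?_)
  refine setIntegral_eq_zero_of_forall_eq_zero fun x hx => mul_eq_zero_of_left ?_ _
  by_contra hne'
  have h2 := hφs _ hne'
  rw [coordMap, ContinuousLinearEquiv.symm_apply_apply] at h2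
  have h3 := hdX _ (dom_subset L e hx)
  exact absurd (h2.trans_le (min_le_left _ _)) (not_lt.2 h3)

end Vale.Agent.P174.GR
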