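import Vale.Agent.P174.GR.Proper

/-!
P174: tuples of matrices split into diagonal and off-diagonal parts, the latter carrying a complex
structure.
-/

noncomputable section

namespace Vale.Agent.P174.GR

open Complex ComplexConjugate

variable {n k : ℕ}

/-- Square complex matrices. -/
abbrev Mat (k : ℕ) := Matrix (Fin k) (Fin k) ℂ

/-- Off-diagonal positions. -/
abbrev Off (n k : ℕ) := {q : Fin n × Fin k × Fin k // q.2.1 ≠ q.2.2}

/-- The conjugation below the diagonal. -/
def tw (a b : Fin k) (z : ℂ) : ℂ := if a < b then z else conj z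

theorem tw_tw (a b : Fin k) (z : ℂ) : tw a b (tw a b z) = z := by
  unfold tw; split <;> simp

theorem tw_add (a b : Fin k) (z w : ℂ) : tw a b (z + w) = tw a b z + tw a b w := by
  unfold tw; split <;> simp

theorem tw_smul (a b : Fin k) (r : ℝ) (z : ℂ) : tw a b (r • z) = r • tw a b z := by
  unfold tw; split <;> simp [Complex.real_smul]

/-- The splitting. -/
def splitEquiv (n k : ℕ) :
    ((Fin n × Fin k → ℂ) × (Off n k → ℂ)) ≃ₗ[ℝ] (Fin n → Mat k) where
  toFun p i := Matrix.of fun a b => if h : a = b then p.1 (i, a) else tw a b (p.2 ⟨(i, a, b), h⟩)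
  map_add' p q := by
    ext i a b
    by_cases h : a = b <;> simp [h, tw_add]
  map_smul' r p := by
    ext i a b
    by_cases h : a = b
    · simp [h]
    · simp [h, -Complex.real_smul, tw_smul]
  invFun X := (fun q => X q.1 q.2 q.2, fun q => tw q.1.2.1 q.1.2.2 (X q.1.1 q.1.2.1 q.1.2.2))
  left_inv p := by
    refine Prod.ext (funext fun q => ?_) (funext fun q => ?_)
    · simp
    · obtain ⟨⟨i, a, b⟩, h⟩ := q
      have h' : a ≠ b := h
      simp [h', tw_tw]
  right_inv X := by
    ext i a b
    by_cases h : a = b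
    · subst h; simp
    · simp [h, tw_tw]

/-- The coefficient of the complex structure. -/
def jc (a b : Fin k) : ℂ := if a < b then I else if b < a then -I else 0

/-- The complex structure on the off-diagonal part of a matrix. -/
def J1 : Mat k →ₗ[ℝ] Mat k where
  toFun X := Matrix.of fun a b => jc a b * X a b
  map_add' X Y := by ext a b; simp [mul_add]
  map_smul' r X := by ext a b; simp; ring

theorem J1_apply (X : Mat k) (a b : Fin k) : J1 X a b = jc a b * X a b := rfl

theorem J1_mul_diagonal (X : Mat k) (d : Fin k → ℂ) :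
    J1 (X * Matrix.diagonal d) = J1 X * Matrix.diagonal d := by
  ext a b; simp [J1_apply, Matrix.mul_diagonal]; ring

theorem J1_diagonal_mul (X : Mat k) (d : Fin k → ℂ) :
    J1 (Matrix.diagonal d * X) = Matrix.diagonal d * J1 X := by
  ext a b; simp [J1_apply, Matrix.diagonal_mul]; ring

theorem J1_star (X : Mat k) : J1 (star X) = star (J1 X) := by
  ext a b
  simp only [J1_apply, Matrix.star_apply, jc]
  rcases lt_trichotomy a b with h | h | h
  · simp [h, h.not_gt]
  · simp [h]
  · simp [h, h.not_gt]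

/-- The complex structure on tuples. -/
def J : (Fin n → Mat k) →ₗ[ℝ] (Fin n → Mat k) where
  toFun X i := J1 (X i)
  map_add' X Y := by funext i; simp
  map_smul' r X := by funext i; simp

/-- The off-diagonal projection. -/
def offP : (Fin n → Mat k) →ₗ[ℝ] (Fin n → Mat k) := -(J ∘ₗ J)

theorem offP_apply (X : Fin n → Mat k) (i : Fin n) (a b : Fin k) :
    offP X i a b = if a = b then 0 else X i a b := by
  show -(jc a b * (jc a b * X i a b)) = _
  unfold jc
  rcases lt_trichotomy a b with h | h | h
  · simp [h, h.ne, ← mul_assoc]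
  · simp [h]
  · simp [h, h.ne', h.not_gt, ← mul_assoc]

theorem J_split (d : Fin n × Fin k → ℂ) (u : Off n k → ℂ) :
    J (splitEquiv n k (d, u)) = splitEquiv n k (0, I • u) := by
  ext i a b
  show jc a b * (if h : a = b then d (i, a) else tw a b (u ⟨(i, a, b), h⟩)) =
    if h : a = b then 0 else tw a b (I * u ⟨(i, a, b), h⟩)
  rcases lt_trichotomy a b with h | h | h
  · simp [h, h.ne, jc, tw]
  · simp [h, jc]
  · simp [h, h.ne', h.not_gt, jc, tw]

theorem offP_split (d : Fin n × Fin k → ℂ) (u : Off n k → ℂ) :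
    offP (splitEquiv n k (d, u)) = splitEquiv n k (0, u) := by
  show -J (J (splitEquiv n k (d, u))) = _
  rw [J_split, J_split, ← map_neg]
  congr 1
  simp [smul_smul]

/-- The determinant of a perturbed map commuting with the complex structure has the sign of its
diagonal part. -/
theorem det_sign (L : (Fin n → Mat k) →ₗ[ℝ] (Fin n → Mat k)) (hJ : ∀ X, L (J X) = J (L X))
    (T : (Fin n × Fin k → ℂ) →ₗ[ℝ] (Fin n × Fin k → ℂ)) (hT : Function.Injective T)
    (z : Fin n × Fin k → ℂ)
    (hL : ∀ h, L (splitEquiv n k (z * h, 0)) = splitEquiv n k (T h, 0)) :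
    {ε : ℝ | LinearMap.det (L + ε • offP) = 0}.Finite ∧
      ∀ ε : ℝ, LinearMap.det (L + ε • offP) ≠ 0 →
        0 < LinearMap.det T * LinearMap.det (L + ε • offP) := by
  set Φ := splitEquiv n k
  set Lw := Φ.symm.toLinearMap ∘ₗ L ∘ₗ Φ.toLinearMap with hLw
  have hLw' : ∀ p, Φ (Lw p) = L (Φ p) := fun p => by simp [hLw]
  have hj : ∀ d u, Lw (0, I • u) = (0, I • (Lw (d, u)).2) := by
    intro d u
    apply Φ.injective
    rw [hLw', ← J_split d u, hJ, ← hLw', ← J_split (Lw (d, u)).1 (Lw (d, u)).2]
  have hd2 : ∀ d, (Lw (d, 0)).2 = 0 := by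
    intro d
    have h1 := congrArg Prod.snd (hj d 0)
    rw [smul_zero, show ((0 : Fin n × Fin k → ℂ), (0 : Off n k → ℂ)) = 0 from rfl, map_zero] at h1
    have h2 := congrArg (fun v => I • v) h1
    simpa [smul_smul] using h2.symm
  have hu1 : ∀ u, (Lw (0, u)).1 = 0 := by
    intro u
    have h1 := congrArg Prod.fst (hj 0 ((-I) • u))
    simpa [smul_smul] using h1
  let Ld : (Fin n × Fin k → ℂ) →ₗ[ℝ] (Fin n × Fin k → ℂ) :=
    LinearMap.fst ℝ _ _ ∘ₗ Lw ∘ₗ LinearMap.inl ℝ _ _
  let Lo : (Off n k → ℂ) →ₗ[ℂ] (Off n k → ℂ) :=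
    { toFun := fun u => (Lw (0, u)).2
      map_add' := fun u v => by
        rw [← Prod.snd_add, ← map_add, Prod.mk_add_mk, add_zero]
      map_smul' := fun c u => by
        have hc : c • u = c.re • u + c.im • (I • u) := by
          funext q
          simp only [Pi.add_apply, Pi.smul_apply, smul_eq_mul, Complex.real_smul]
          conv_lhs => rw [← Complex.re_add_im c]
          ring
        rw [RingHom.id_apply, hc, show ((0 : Fin n × Fin k → ℂ), c.re • u + c.im • (I • u)) =
          c.re • ((0 : Fin n × Fin k → ℂ), u) + c.im • ((0 : Fin n × Fin k → ℂ), I • u) by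
            simp [Prod.smul_mk], map_add, map_smul, map_smul, hj 0 u]
        funext q
        simp only [Prod.snd_add, Prod.smul_snd, Pi.add_apply, Pi.smul_apply, smul_eq_mul,
          Complex.real_smul]
        conv_rhs => rw [← Complex.re_add_im c]
        ring }
  let Le : ℝ → ((Off n k → ℂ) →ₗ[ℂ] (Off n k → ℂ)) := fun ε => Lo + (ε : ℂ) • LinearMap.id
  have hprod : ∀ ε : ℝ, LinearMap.det (L + ε • offP) =
      LinearMap.det Ld * Complex.normSq (LinearMap.det (Le ε)) := by
    intro ε
    rw [← LinearMap.det_conj (L + ε • offP) Φ.symm, ← Algebra.norm_complex_apply,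
      ← LinearMap.det_restrictScalars, ← LinearMap.det_prodMap]
    congr 1
    refine LinearMap.ext fun p => ?_
    obtain ⟨d, u⟩ := p
    show Φ.symm ((L + ε • (offP : (Fin n → Mat k) →ₗ[ℝ] (Fin n → Mat k))) (Φ (d, u))) = (Ld d, Le ε u)
    rw [LinearMap.add_apply, LinearMap.smul_apply, ← hLw', offP_split, map_add, map_smul,
      LinearEquiv.symm_apply_apply, LinearEquiv.symm_apply_apply]
    have h1 : Lw (d, u) = Lw (d, 0) + Lw (0, u) := by rw [← map_add, Prod.mk_add_mk, add_zero, zero_add]
    rw [h1]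
    refine Prod.ext ?_ ?_
    · simp [Ld, hu1]
    · funext q
      simp [Le, Lo, hd2, Complex.real_smul]
  let mz : (Fin n × Fin k → ℂ) →ₗ[ℂ] (Fin n × Fin k → ℂ) := LinearMap.mulLeft ℂ z
  have hTd : LinearMap.det T = LinearMap.det Ld * Complex.normSq (LinearMap.det mz) := by
    rw [← Algebra.norm_complex_apply, ← LinearMap.det_restrictScalars, ← LinearMap.det_comp]
    congr 1
    refine LinearMap.ext fun h => ?_
    have h1 : Lw (z * h, 0) = (T h, 0) := Φ.injective (by rw [hLw', hL])
    exact (congrArg Prod.fst h1).symm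
  have hT0 : LinearMap.det T ≠ 0 := by
    intro h0
    have := (LinearMap.bot_lt_ker_of_det_eq_zero h0).ne'
    exact this (LinearMap.ker_eq_bot.2 hT)
  have hLd : LinearMap.det Ld ≠ 0 := left_ne_zero_of_mul (hTd ▸ hT0)
  constructor
  · refine ((Module.End.finite_spectrum Lo).preimage
      (f := fun ε : ℝ => -(ε : ℂ)) fun a _ b _ h => Complex.ofReal_injective (neg_injective h)).subset
        fun ε hε => ?_
    have h0 : LinearMap.det (Le ε) = 0 := by
      have h1 : LinearMap.det Ld * Complex.normSq (LinearMap.det (Le ε)) = 0 := (hprod ε).symm.trans hε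
      simpa using (mul_eq_zero.1 h1).resolve_left hLd
    show -(ε : ℂ) ∈ spectrum ℂ Lo
    rw [spectrum.mem_iff]
    intro hu
    have h2 : IsUnit (Le ε) := by
      have e : algebraMap ℂ (Module.End ℂ (Off n k → ℂ)) (-(ε : ℂ)) - Lo = -Le ε := by
        refine LinearMap.ext fun u => funext fun q => ?_
        simp [Le]; ring
      exact (IsUnit.neg_iff _).1 (e ▸ hu)
    exact (h2.map LinearMap.det).ne_zero h0
  · intro ε hε
    rw [hprod] at hε ⊢
    rw [hTd]
    have h1 : LinearMap.det mz ≠ 0 := fun h0 => by rw [hTd, h0] at hT0; simp at hT0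
    have h2 : LinearMap.det (Le ε) ≠ 0 := fun h0 => by rw [h0] at hε; simp at hε
    have h3 : 0 < Complex.normSq (LinearMap.det mz) * Complex.normSq (LinearMap.det (Le ε)) :=
      mul_pos (Complex.normSq_pos.2 h1) (Complex.normSq_pos.2 h2)
    calc 0 < LinearMap.det Ld * LinearMap.det Ld *
          (Complex.normSq (LinearMap.det mz) * Complex.normSq (LinearMap.det (Le ε))) :=
          mul_pos (mul_self_pos.2 hLd) h3
      _ = _ := by ring

end Vale.Agent.P174.GR
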